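import Vale.Agent.N031.Step

/-!
# P031: the entropy functional of a good totient is the linear form of Ford of each preimage
-/

set_option linter.all false

namespace Vale.Agent.N031

open Finset Filter Topology Vale.Agent.P031 Vale.Agent.P031.ThinM

/-- `∑_i a_{j+i} log log p_i`, where `p_1 > p_2 > ...` are the primes dividing `n` -/
noncomputable def kap (j n : ℕ) : ℝ :=
  ∑ p ∈ n.primeFactors, aa (j + (n.primeFactors.filter (fun q => p ≤ q)).card) * ll (p : ℝ)

theorem kap_cons {j p m : ℕ} (hp : p.Prime) (hm : m ≠ 0) (h : ∀ q : ℕ, q.Prime → q ∣ m → q < p) :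
    kap j (p * m) = aa (j + 1) * ll (p : ℝ) + kap (j + 1) m := by
  have hpf : (p * m).primeFactors = insert p m.primeFactors := by
    rw [Nat.primeFactors_mul hp.ne_zero hm, hp.primeFactors]
    rfl
  have hlt : ∀ q ∈ m.primeFactors, q < p := fun q hq =>
    h q (Nat.prime_of_mem_primeFactors hq) (Nat.dvd_of_mem_primeFactors hq)
  have hnot : p ∉ m.primeFactors := fun hq => lt_irrefl _ (hlt p hq)
  unfold kap
  rw [hpf, Finset.sum_insert hnot]
  congr 1
  · have h1 : (insert p m.primeFactors).filter (fun q => p ≤ q) = {p} := by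
      ext q
      simp only [Finset.mem_filter, Finset.mem_insert, Finset.mem_singleton]
      constructor
      · rintro ⟨h1 | h1, h2⟩
        · exact h1
        · exact absurd (hlt q h1) (not_lt.2 h2)
      · rintro rfl
        exact ⟨Or.inl rfl, le_rfl⟩
    rw [h1, Finset.card_singleton]
  · refine Finset.sum_congr rfl fun r hr => ?_
    have h1 : (insert p m.primeFactors).filter (fun q => r ≤ q) =
        insert p (m.primeFactors.filter (fun q => r ≤ q)) := by
      rw [Finset.filter_insert, if_pos (hlt r hr).le]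
    have h2 : p ∉ m.primeFactors.filter (fun q => r ≤ q) := fun hq =>
      hnot (Finset.mem_filter.1 hq).1
    rw [h1, Finset.card_insert_of_notMem h2]
    congr 2
    omega

theorem chain_kap : ∀ᶠ M : ℕ in atTop, ∀ (n' : ℕ), Small M n' → ∀ (L : List ℕ) (j : ℕ),
    (∀ p ∈ L, Nrm M p ∧ ll (p : ℝ) ≤ 5 * (M : ℝ) ^ 20) → L.Pairwise (· > ·) →
    j + L.length ≤ M → Om (vl L (Nat.totient n')) ≤ M ^ 26 →
    |HH M (j + 1) (vl L (Nat.totient n')) - (kap j (L.prod * n') - kap (j + L.length) n')| ≤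
      (L.length : ℝ) * (2 * (M : ℝ) ^ 17) := by
  filter_upwards [stepU, eventually_ge_atTop 1] with M hstep hM n' hn' L
  have hM1 : (1 : ℝ) ≤ M := by exact_mod_cast hM
  induction L with
  | nil =>
    intro j _ _ _ _
    rw [vl_nil, HH_small M (j + 1) _ hM (Small_totient hn')]
    simp
  | cons p L ih =>
    intro j h1 h2 h3 h4
    have hp := h1 p (by simp)
    have hL : ∀ q ∈ L, Nrm M q ∧ ll (q : ℝ) ≤ 5 * (M : ℝ) ^ 20 := fun q hq => h1 q (by simp [hq])
    have hpw := List.pairwise_cons.1 h2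
    have hD0 : vl L (Nat.totient n') ≠ 0 :=
      vl_ne_zero (fun q hq => (hL q hq).1.two_le) (one_le_totient hn')
    have hfull0 : vl (p :: L) (Nat.totient n') ≠ 0 :=
      vl_ne_zero (fun q hq => (h1 q hq).1.two_le) (one_le_totient hn')
    have hdvd : vl L (Nat.totient n') ∣ vl (p :: L) (Nat.totient n') := by
      rw [vl_cons]; exact Dvd.intro_left _ rfl
    have hOm : Om (vl L (Nat.totient n')) ≤ M ^ 26 := (Om_le_of_dvd hfull0 hdvd).trans h4
    simp only [List.length_cons] at h3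
    have hih := ih (j + 1) hL hpw.2 (by omega) hOm
    have hst := hstep (j + 1) p (vl L (Nat.totient n')) (by omega) hp.1 hp.2 hD0 hOm
      (fun q hq hqd => prime_le_head hn' (fun r hr => (h1 r hr).1) h2 q hq (hqd.trans hdvd))
    have hm0 : L.prod * n' ≠ 0 := by
      refine Nat.mul_ne_zero ?_ hn'.1
      refine List.prod_ne_zero fun h0 => ?_
      have := (hL 0 h0).1.two_le
      omega
    have hk : kap j ((p :: L).prod * n') = aa (j + 1) * ll (p : ℝ) + kap (j + 1) (L.prod * n') := by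
      rw [List.prod_cons, mul_assoc]
      refine kap_cons hp.1.big.1 hm0 fun q hq hqd => ?_
      rcases (Nat.Prime.dvd_mul hq).1 hqd with h5 | h5
      · obtain ⟨a, ha, hqa⟩ := (Prime.dvd_prod_iff hq.prime).1 h5
        have h6 : q = a := (Nat.prime_dvd_prime_iff_eq hq (hL a ha).1.big.1).1 hqa
        rw [h6]
        exact hpw.1 a ha
      · by_contra hcon
        exact hn'.2 q h5 (Big_of_le hp.1.big hq (not_lt.1 hcon))
    have ha0 : 0 < aa (j + 1) := aa_nonneg _ (by omega)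
    have ha1 : aa (j + 1) ≤ M := by
      have h5 := aa_le_log (j + 1)
      have h6 := Real.log_le_sub_one_of_pos (x := (((j + 1 : ℕ) : ℝ) + 1)) (by positivity)
      have h7 : ((j + 1 : ℕ) : ℝ) ≤ M := by exact_mod_cast (by omega : j + 1 ≤ M)
      linarith only [h5, h6, h7]
    have ha2 : aa (j + 1) * (M : ℝ) ^ 15 ≤ (M : ℝ) ^ 17 := by
      calc aa (j + 1) * (M : ℝ) ^ 15 ≤ M * (M : ℝ) ^ 15 :=
            mul_le_mul_of_nonneg_right ha1 (by positivity)
        _ = (M : ℝ) ^ 16 := by ring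
        _ ≤ (M : ℝ) ^ 17 := pow_le_pow_right₀ hM1 (by norm_num)
    have ha3 : 0 ≤ aa (j + 1) * (M : ℝ) ^ 15 := by positivity
    rw [vl_cons, hk, List.length_cons, show j + (L.length + 1) = j + 1 + L.length by omega]
    push_cast
    rw [abs_le] at hih hst ⊢
    constructor <;> nlinarith only [hih.1, hih.2, hst.1, hst.2, ha2, ha3]

theorem ll_two_ge : -1 ≤ ll ((2 : ℕ) : ℝ) := by
  unfold ll
  have h1 : (1 / 2 : ℝ) ≤ Real.log ((2 : ℕ) : ℝ) := by
    have := Real.log_two_gt_d9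
    push_cast
    linarith
  have h2 := Real.log_le_log (by norm_num) h1
  have h3 : Real.log (1 / 2 : ℝ) = -Real.log 2 := by rw [one_div, Real.log_inv]
  have h4 : Real.log 2 ≤ 1 := by
    have := Real.log_two_lt_d9
    norm_num at this ⊢
    linarith
  rw [h3] at h2
  exact le_trans (neg_le_neg h4) h2

theorem one_le_Om {n : ℕ} (hn : 2 ≤ n) : 1 ≤ Om n := by
  obtain ⟨p, hp, hpn⟩ := Nat.exists_prime_and_dvd (n := n) (by omega)
  have h := Om_le_of_dvd (b := n) (by omega) hpn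
  rwa [Om_prime hp] at h

/-- the small primes contribute little -/
theorem kap_small : ∀ᶠ M : ℕ in atTop, ∀ (j n' : ℕ), n' ≠ 0 → j ≤ M →
    (Om (Nat.totient n') : ℝ) ≤ 4 * (M : ℝ) ^ 15 →
    (∀ p : ℕ, p.Prime → p ∣ n' → (M : ℝ) ^ 2 ≤ ll (p : ℝ) → 9 / 10 * ll (p : ℝ) ≤ (Om (p - 1) : ℝ)) →
    |kap j n'| ≤ (M : ℝ) ^ 18 := by
  filter_upwards [St.ev_log_le (1 / 300) (by norm_num), St.ev_ge 10] with M hlog hM j n' hn' hj hOm hnrm
  have hM1 : (1 : ℝ) ≤ M := by linarith only [hM]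
  have hM2 : (1 : ℝ) ≤ (M : ℝ) ^ 2 := one_le_pow₀ hM1
  have hsum : ∑ p ∈ n'.primeFactors, (Om (p - 1) : ℝ) ≤ 4 * (M : ℝ) ^ 15 := by
    have h := Crude.Om_totient hn'
    have h' : ((∑ p ∈ n'.primeFactors, Om (p - 1) : ℕ) : ℝ) ≤ (Om (Nat.totient n') : ℝ) := by
      exact_mod_cast h
    push_cast at h'
    exact h'.trans hOm
  have hite : ∑ p ∈ n'.primeFactors, (if p = 2 then (1 : ℝ) else 0) ≤ 1 := by
    rw [Finset.sum_ite_eq']
    split_ifs <;> norm_num
  have hone : ∀ p ∈ n'.primeFactors, (1 : ℝ) ≤ (Om (p - 1) : ℝ) + (if p = 2 then (1 : ℝ) else 0) := by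
    intro p hp
    have h2 := (Nat.prime_of_mem_primeFactors hp).two_le
    split_ifs with h
    · have : (0 : ℝ) ≤ (Om (p - 1) : ℝ) := Nat.cast_nonneg _
      linarith
    · have h3 : 1 ≤ Om (p - 1) := one_le_Om (by omega)
      have h4 : (1 : ℝ) ≤ (Om (p - 1) : ℝ) := by exact_mod_cast h3
      linarith
  have hcard : (n'.primeFactors.card : ℝ) ≤ 4 * (M : ℝ) ^ 15 + 1 := by
    calc (n'.primeFactors.card : ℝ) = ∑ p ∈ n'.primeFactors, (1 : ℝ) := by simp
      _ ≤ ∑ p ∈ n'.primeFactors, ((Om (p - 1) : ℝ) + (if p = 2 then (1 : ℝ) else 0)) :=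
          Finset.sum_le_sum hone
      _ ≤ 4 * (M : ℝ) ^ 15 + 1 := by rw [Finset.sum_add_distrib]; linarith only [hsum, hite]
  have hll : ∀ p ∈ n'.primeFactors, |ll (p : ℝ)| ≤
      2 * (M : ℝ) ^ 2 * ((Om (p - 1) : ℝ) + (if p = 2 then (1 : ℝ) else 0)) := by
    intro p hp
    have hpp := Nat.prime_of_mem_primeFactors hp
    have h1 := hone p hp
    have h0 : (0 : ℝ) ≤ (if p = 2 then (1 : ℝ) else 0) := by split_ifs <;> norm_num
    have hlow : -1 ≤ ll (p : ℝ) := ll_two_ge.trans (ThinM.ll_mono le_rfl hpp.two_le)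
    by_cases hc : (M : ℝ) ^ 2 ≤ ll (p : ℝ)
    · have h2 := hnrm p hpp (Nat.dvd_of_mem_primeFactors hp) hc
      rw [abs_of_nonneg (by linarith only [hc, hM2])]
      have h3 : (0 : ℝ) ≤ (Om (p - 1) : ℝ) := Nat.cast_nonneg _
      nlinarith only [h2, h3, h0, hM2]
    · push Not at hc
      have h2 : |ll (p : ℝ)| ≤ (M : ℝ) ^ 2 := by
        rw [abs_le]; constructor <;> linarith only [hlow, hc, hM2]
      nlinarith only [h2, h1, hM2]
  have haa : ∀ p ∈ n'.primeFactors,
      |aa (j + (n'.primeFactors.filter (fun q => p ≤ q)).card)| ≤ (M : ℝ) / 10 := by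
    intro p hp
    have h1 : 1 ≤ (n'.primeFactors.filter (fun q => p ≤ q)).card :=
      Finset.card_pos.2 ⟨p, Finset.mem_filter.2 ⟨hp, le_rfl⟩⟩
    have h2 : (n'.primeFactors.filter (fun q => p ≤ q)).card ≤ n'.primeFactors.card :=
      Finset.card_filter_le _ _
    rw [abs_of_pos (aa_nonneg _ (by omega))]
    refine (aa_le_log _).trans ?_
    have h3 : (((j + (n'.primeFactors.filter (fun q => p ≤ q)).card : ℕ) : ℝ) + 1) ≤ (M : ℝ) ^ 16 := by
      have h4 : ((n'.primeFactors.filter (fun q => p ≤ q)).card : ℝ) ≤ n'.primeFactors.card := by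
        exact_mod_cast h2
      have h5 : (j : ℝ) ≤ M := by exact_mod_cast hj
      have h6 : (M : ℝ) ≤ (M : ℝ) ^ 15 := le_self_pow₀ hM1 (by norm_num)
      have h7 : 10 * (M : ℝ) ^ 15 ≤ (M : ℝ) ^ 16 := by
        rw [pow_succ (M : ℝ) 15]
        nlinarith only [hM, h6]
      push_cast
      linarith only [h4, h5, h6, h7, hcard, hM]
    have h4 := Real.log_le_log (by positivity) h3
    rw [Real.log_pow] at h4
    push_cast at h4 ⊢
    linarith only [h4, hlog, hM]
  unfold kap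
  refine (Finset.abs_sum_le_sum_abs _ _).trans ?_
  calc ∑ p ∈ n'.primeFactors,
        |aa (j + (n'.primeFactors.filter (fun q => p ≤ q)).card) * ll (p : ℝ)|
      ≤ ∑ p ∈ n'.primeFactors, (M : ℝ) / 10 *
          (2 * (M : ℝ) ^ 2 * ((Om (p - 1) : ℝ) + (if p = 2 then (1 : ℝ) else 0))) := by
        refine Finset.sum_le_sum fun p hp => ?_
        rw [abs_mul]
        exact mul_le_mul (haa p hp) (hll p hp) (abs_nonneg _) (by positivity)
    _ = (M : ℝ) / 10 * (2 * (M : ℝ) ^ 2 * (∑ p ∈ n'.primeFactors, (Om (p - 1) : ℝ) +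
          ∑ p ∈ n'.primeFactors, (if p = 2 then (1 : ℝ) else 0))) := by
        rw [← Finset.sum_add_distrib, Finset.mul_sum, Finset.mul_sum]
    _ ≤ (M : ℝ) / 10 * (2 * (M : ℝ) ^ 2 * (5 * (M : ℝ) ^ 15)) := by
        have h6 : (1 : ℝ) ≤ (M : ℝ) ^ 15 := one_le_pow₀ hM1
        gcongr
        linarith only [hsum, hite, h6]
    _ = (M : ℝ) ^ 18 := by ring

end Vale.Agent.N031
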