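import Vale.Agent.N031.Mass
import Vale.Agent.P031.H951.RegVarK

/-!
# P031: the asymptotic formula with the linear form of Ford
-/

set_option linter.all false

namespace Vale.Agent.N031

open Finset Filter Topology Vale.Agent.P031 Vale.Agent.P031.H951

theorem one_le_WW (M : ℕ) (τ : ℝ) (hτ : 0 ≤ τ) : 1 ≤ WW M τ := by
  have h := KA.one_le_FF M 0 τ hτ
  rwa [J3.FF_zero_eq] at h

open Classical in
theorem WK_diff (M : ℕ) {τ τ' : ℝ} (h : τ ≤ τ') (S A : Set ℕ) :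
    WK M τ' S A - WK M τ S A ≤ WW M τ' - WW M τ := by
  unfold WK WW
  have hsub : DF M 0 1 τ ⊆ DF M 0 1 τ' := DF_mono h
  rw [Finset.sum_filter, Finset.sum_filter, ← Finset.sum_sdiff hsub,
    ← Finset.sum_sdiff (f := fun D : ℕ => 1 / (D : ℝ)) hsub, add_sub_cancel_right,
    add_sub_cancel_right]
  refine Finset.sum_le_sum fun D _ => ?_
  split_ifs
  · exact le_rfl
  · positivity

theorem sum_le_add_bad (s t : Finset ℕ) (B : ℕ → Prop) (β : ℝ) (h : ∀ d ∈ s, ¬ B d → d ∈ t)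
    (hB : ∀ u : Finset ℕ, (∀ d ∈ u, d ∈ s ∧ B d) → ∑ d ∈ u, 1 / (d : ℝ) ≤ β) :
    ∑ d ∈ s, 1 / (d : ℝ) ≤ ∑ d ∈ t, 1 / (d : ℝ) + β := by
  refine mass_or s (fun d => d ∈ t) B _ _ (fun d hd => ?_) (fun u hu => ?_) hB
  · by_cases hb : B d
    · exact Or.inr hb
    · exact Or.inl (h d hd hb)
  · exact Finset.sum_le_sum_of_subset_of_nonneg (fun d hd => (hu d hd).2) fun _ _ _ => by positivity

open Classical in
theorem law (ε : ℝ) (hε : 0 < ε) (P : ℕ) : ∃ δ : ℝ, 0 < δ ∧ ∀ η : ℝ, 0 < η →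
    ∀ᶠ x : ℝ in atTop, ∀ D : Finset ℕ,
    (∀ d ∈ D, (d : ℝ) ≤ x ∧ ∃ n : ℕ, 1 ≤ n ∧ Nat.totient n = d ∧
      kap 0 n ≤ ll x + δ * (ll x) ^ ((19 : ℝ) / 20)) →
    (∀ d : ℕ, IsTot d → (d : ℝ) ≤ x ^ η → (∀ n : ℕ, 1 ≤ n → Nat.totient n = d →
      kap 0 n ≤ ll x - δ * (ll x) ^ ((19 : ℝ) / 20)) → d ∈ D) →
    ∀ S A : Set ℕ, ML.Stable P S →
    |(ML.VSK S A x : ℝ) - x / Real.log x *
      ∑ d ∈ D.filter (fun d => ML.mult S d ∈ A), 1 / (d : ℝ)| ≤ ε * ML.V x := by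
  obtain ⟨C₀, K, c₀, hC₀, hK, hc₀, hc1, happ⟩ := approx4
  obtain ⟨ε₁, hε₁0, hε₁1, hε₁⟩ : ∃ ε₁ : ℝ, 0 < ε₁ ∧ ε₁ ≤ 1 ∧ ε₁ ≤ ε :=
    ⟨min 1 ε, by positivity, min_le_left _ _, min_le_right _ _⟩
  obtain ⟨x₁, hx₁, hM⟩ := happ (ε₁ / 64) P (by positivity) (by linarith only [hε₁1])
  obtain ⟨δ, hδ0, hδ1, hδ2⟩ : ∃ δ : ℝ, 0 < δ ∧ δ ≤ c₀ / 6 ∧ K * δ ≤ ε₁ / 384 := by
    refine ⟨min (c₀ / 6) (ε₁ / (384 * K)), by positivity, min_le_left _ _, ?_⟩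
    calc K * min (c₀ / 6) (ε₁ / (384 * K)) ≤ K * (ε₁ / (384 * K)) := by
          gcongr
          exact min_le_right _ _
      _ = ε₁ / 384 := by field_simp
  refine ⟨δ, hδ0, fun η hη => ?_⟩
  obtain ⟨η₁, hη₁0, hη₁1, hη₁⟩ : ∃ η₁ : ℝ, 0 < η₁ ∧ η₁ ≤ 1 ∧ η₁ ≤ η :=
    ⟨min 1 η, by positivity, min_le_left _ _, min_le_right _ _⟩
  have hexpM : ∀ᶠ M : ℕ in atTop, 5 * Real.exp (-(M : ℝ)) ≤ ε₁ / 32 := by
    have h1 : Tendsto (fun M : ℕ => Real.exp (-(M : ℝ))) atTop (𝓝 0) :=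
      Real.tendsto_exp_neg_atTop_nhds_zero.comp tendsto_natCast_atTop_atTop
    filter_upwards [h1.eventually_lt_const (u := ε₁ / 160) (by positivity)] with M h
    linarith only [h]
  obtain ⟨M₀, hM₀⟩ := eventually_atTop.1 ((((hM.and (KA.ev_pow_le C₀ δ hδ0 18)).and
    ((KA.ev_pow_le 8 δ hδ0 18).and hexpM)).and
    ((struct_good.and bad_mass).and (DF_size2 η₁ hη₁0))).and (eventually_ge_atTop 1000))
  have hlim : Tendsto (fun x : ℝ => ll x) atTop atTop :=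
    Real.tendsto_log_atTop.comp Real.tendsto_log_atTop
  filter_upwards [hlim.eventually_ge_atTop (((M₀ : ℝ) + 1) ^ 20), eventually_ge_atTop x₁,
    eventually_ge_atTop (9 : ℝ)] with x g1 g3 hx9 D hD1 hD2 S A hS
  obtain ⟨M, hM0, hMx, hxM⟩ := KA.exists_M x M₀ g1
  obtain ⟨⟨⟨⟨hap, hC18⟩, h818, hβ⟩, ⟨hstruct, hmass⟩, hsize⟩, hM1000⟩ := hM₀ M hM0
  norm_num at hC18 h818
  have hM1000' : (1000 : ℝ) ≤ M := by exact_mod_cast hM1000
  have hMpos : (0 : ℝ) < M := by linarith only [hM1000']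
  have hM1 : (1 : ℝ) ≤ M := by linarith only [hM1000']
  have hx3 : 3 ≤ x := by linarith only [hx9]
  have hM1' : (M : ℝ) + 1 ≤ 1001 / 1000 * M := by linarith only [hM1000']
  have h20 : ((M : ℝ) + 1) ^ 20 ≤ 41 / 40 * (M : ℝ) ^ 20 := by
    calc ((M : ℝ) + 1) ^ 20 ≤ (1001 / 1000 * M) ^ 20 := by gcongr
      _ = (1001 / 1000) ^ 20 * (M : ℝ) ^ 20 := by rw [mul_pow]
      _ ≤ 41 / 40 * (M : ℝ) ^ 20 := by gcongr; norm_num
  have h19 : ((M : ℝ) + 1) ^ 19 ≤ 5 / 4 * (M : ℝ) ^ 19 := by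
    calc ((M : ℝ) + 1) ^ 19 ≤ (1001 / 1000 * M) ^ 19 := by gcongr
      _ = (1001 / 1000) ^ 19 * (M : ℝ) ^ 19 := by rw [mul_pow]
      _ ≤ 5 / 4 * (M : ℝ) ^ 19 := by gcongr; norm_num
  have hp19 : 0 < (M : ℝ) ^ 19 := by positivity
  have hp18 : 0 < (M : ℝ) ^ 18 := by positivity
  have hp20 : 1000 * (M : ℝ) ^ 19 ≤ (M : ℝ) ^ 20 := by
    rw [pow_succ (M : ℝ) 19]; nlinarith only [hp19, hM1000']
  have hp15 : (M : ℝ) ^ 15 ≤ (M : ℝ) ^ 18 := pow_le_pow_right₀ hM1 (by norm_num)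
  have hp15' : 1 ≤ (M : ℝ) ^ 15 := one_le_pow₀ hM1
  have hllx0 : 0 < ll x := lt_of_lt_of_le (by positivity) hMx
  have ht : (ll x) ^ ((19 : ℝ) / 20) ≤ 5 / 4 * (M : ℝ) ^ 19 := by
    have h1 : (ll x) ^ ((19 : ℝ) / 20) ≤ (((M : ℝ) + 1) ^ 20) ^ ((19 : ℝ) / 20) :=
      Real.rpow_le_rpow hllx0.le hxM (by norm_num)
    have h2 : (((M : ℝ) + 1) ^ 20) ^ ((19 : ℝ) / 20) = ((M : ℝ) + 1) ^ 19 := by
      rw [← Real.rpow_natCast, ← Real.rpow_natCast, ← Real.rpow_mul (by positivity)]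
      norm_num
    rw [h2] at h1
    exact h1.trans h19
  obtain ⟨u, hu⟩ : ∃ u : ℝ, u = δ * (M : ℝ) ^ 19 := ⟨_, rfl⟩
  rw [← hu] at hC18 h818
  have hu0 : 0 < u := by rw [hu]; positivity
  have hτ : δ * (ll x) ^ ((19 : ℝ) / 20) ≤ 5 / 4 * u := by
    calc δ * (ll x) ^ ((19 : ℝ) / 20) ≤ δ * (5 / 4 * (M : ℝ) ^ 19) := by gcongr
      _ = _ := by rw [hu]; ring
  have hu6 : 6 * u ≤ c₀ * (M : ℝ) ^ 19 := by
    rw [hu]; nlinarith only [hδ1, hp19]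
  have hu7 : 6 * u ≤ (M : ℝ) ^ 19 := by nlinarith only [hu6, hc1, hp19]
  have hKu : ∀ a : ℝ, 0 ≤ a → a ≤ 6 → ε₁ / 64 + K * (a * u / (M : ℝ) ^ 19) ≤ ε₁ / 32 := by
    intro a ha0 ha6
    have h1 : K * (a * u / (M : ℝ) ^ 19) = a * (K * δ) := by rw [hu]; field_simp
    have h2 : 0 ≤ K * δ := by positivity
    rw [h1]
    nlinarith only [hδ2, ha0, ha6, h2, hε₁0]
  obtain ⟨T, hT⟩ : ∃ T : ℝ, T = ll x - (M : ℝ) ^ 15 := ⟨_, rfl⟩
  have hxT : |ll x - (M : ℝ) ^ 15 - T| ≤ 1 := by rw [hT]; simp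
  have hT1 : 1 / 2 * (M : ℝ) ^ 20 + 2 * u ≤ T := by
    rw [hT]; linarith only [hMx, hp20, hp15, hp19, hu7, h818]
  have hT2 : T + 4 * u ≤ 41 / 20 * (M : ℝ) ^ 20 := by
    rw [hT]; linarith only [hxM, h20, hp15', hp19, hp20, hu7]
  have hx4 : ll x ≤ 4 * (M : ℝ) ^ 20 := by linarith only [hxM, h20, hp20, hp19]
  -- the approximation at `x`
  obtain ⟨ax, axK⟩ := hap x T (2 * u) g3 hxT (by linarith only [hT1, hu0])
    (by linarith only [hT2, hu0]) (by linarith only [hC18, hu0]) (by linarith only [hu6, hu0])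
  replace axK := axK S A hS
  -- the two approximations at `y`
  obtain ⟨y, hy⟩ : ∃ y : ℝ, y = Real.exp (Real.exp (T + 4 * u + (M : ℝ) ^ 15)) := ⟨_, rfl⟩
  have hlly : ll y = T + 4 * u + (M : ℝ) ^ 15 := by rw [hy, ll_exp_exp]
  have hxy : x ≤ y := by
    rw [hy]
    exact le_exp_exp (by linarith only [hx9]) (by rw [hT]; linarith only [hu0])
  have hyT : |ll y - (M : ℝ) ^ 15 - (T + 4 * u)| ≤ 1 := by rw [hlly]; simp
  obtain ⟨ay1, -⟩ := hap y (T + 4 * u) (2 * u) (g3.trans hxy) hyT (by linarith only [hT1, hu0])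
    hT2 (by linarith only [hC18, hu0]) (by linarith only [hu6, hu0])
  obtain ⟨ay2, -⟩ := hap y (T + 4 * u) (6 * u) (g3.trans hxy) hyT (by linarith only [hT1, hu0])
    hT2 (by linarith only [hC18, hu0]) hu6
  rw [show T + 4 * u - 2 * u = T + 2 * u by ring] at ay1
  rw [show T + 4 * u - 6 * u = T - 2 * u by ring] at ay2
  obtain ⟨W₁, hW₁⟩ : ∃ W₁ : ℝ, W₁ = WW M (T + 2 * u) := ⟨_, rfl⟩
  obtain ⟨W₂, hW₂⟩ : ∃ W₂ : ℝ, W₂ = WW M (T - 2 * u) := ⟨_, rfl⟩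
  have h20' : 0 < (M : ℝ) ^ 20 := by positivity
  have hW₂1 : 1 ≤ W₂ := by rw [hW₂]; exact one_le_WW M _ (by linarith only [hT1, h20'])
  have hW₁1 : 1 ≤ W₁ := by rw [hW₁]; exact one_le_WW M _ (by linarith only [hT1, h20', hu0])
  rw [← hW₁] at ay1
  rw [← hW₂] at ay2 ax axK
  have hlogx : 0 < Real.log x := Real.log_pos (by linarith only [hx3])
  have hX : 0 < x / Real.log x := by positivity
  have hY : 0 < y / Real.log y :=
    div_pos (by linarith only [hxy, hx3]) (Real.log_pos (by linarith only [hxy, hx3]))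
  obtain ⟨θ, hθ⟩ : ∃ θ : ℝ, θ = ε₁ / 32 := ⟨_, rfl⟩
  have hθ0 : 0 < θ := by rw [hθ]; positivity
  have hθ1 : θ ≤ 1 / 32 := by rw [hθ]; linarith only [hε₁1]
  have k2 := hKu 2 (by norm_num) (by norm_num)
  have k6 := hKu 6 (by norm_num) le_rfl
  rw [← hθ] at k2 k6 hβ
  replace ax := ax.trans (mul_le_mul_of_nonneg_right k2 (by positivity))
  replace axK := axK.trans (mul_le_mul_of_nonneg_right k2 (by positivity))
  replace ay1 := ay1.trans (mul_le_mul_of_nonneg_right k2 (by positivity))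
  replace ay2 := ay2.trans (mul_le_mul_of_nonneg_right k6 (by positivity))
  have hW12 : W₁ - W₂ ≤ 3 * θ * W₂ := by
    obtain ⟨a1, -⟩ := abs_le.1 ay1
    obtain ⟨-, a2⟩ := abs_le.1 ay2
    have h1 : y / Real.log y * ((1 - θ) * W₁) ≤ y / Real.log y * ((1 + θ) * W₂) := by
      linarith only [a1, a2]
    have h2 := le_of_mul_le_mul_left h1 hY
    have h3 : W₁ ≤ 2 * W₂ := by nlinarith only [h2, hθ1, hθ0, hW₁1, hW₂1]
    nlinarith only [h2, h3, hθ0]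
  -- upper inclusion
  have hup : ∑ d ∈ D.filter (fun d => ML.mult S d ∈ A), 1 / (d : ℝ) ≤
      WK M (T + 2 * u) S A + θ := by
    refine sum_le_add_bad _ _ (Bad M x) θ (fun d hd hb => ?_) (fun s hs => ?_)
    · obtain ⟨hd1, hd2⟩ := Finset.mem_filter.1 hd
      obtain ⟨hdx, n, hn1, rfl, hk⟩ := hD1 d hd1
      obtain ⟨h1, h2⟩ := hstruct x n hx9 hx4 hn1 hdx hb
      have hpos : 1 ≤ Nat.totient n := Nat.totient_pos.2 hn1
      refine Finset.mem_filter.2 ⟨mem_DF.2 ⟨⟨hpos, J3.lt_NN hx3 ?_ ?_⟩, h1, ?_⟩, hd2⟩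
      · linarith only [hx4, hp20, hp19, hu7, h818, hp15, hp15']
      · linarith only [hdx]
      · rw [J3.Cost_one]
        refine max_le (J3.YY_le (by linarith only [hT1, h20', hu0]) fun q hq hqd => ?_) ?_
        · have h3 : (q : ℝ) ≤ Nat.totient n := by exact_mod_cast Nat.le_of_dvd hpos hqd
          have h4 := ll_mono (a := (q : ℝ)) (by exact_mod_cast hq.one_lt) (h3.trans hdx)
          rw [hT]; linarith only [h4, hu0]
        · have h3 := (abs_le.1 h2).2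
          rw [hT]; linarith only [h3, hk, hτ, h818, hp15, hu0]
    · refine (hmass x s hx9 hx4 fun d hd => ?_).trans hβ
      obtain ⟨h1, h2⟩ := hs d hd
      obtain ⟨hdx, n, hn1, rfl, -⟩ := hD1 d (Finset.mem_filter.1 h1).1
      exact ⟨Nat.totient_pos.2 hn1, hdx, h2⟩
  -- lower inclusion
  have hsz : ∀ d ∈ DF M 0 1 (T - 2 * u), (d : ℝ) ≤ x ^ η₁ := by
    intro d hd
    have h1 := hsize x T (2 * u) d hx3 hxT (by linarith only [h818, hp18, hu0]) hd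
    have h2 : (0 : ℝ) < d := by exact_mod_cast KA.mem_DF_pos hd
    rw [← Real.log_le_log_iff h2 (by positivity), Real.log_rpow (by linarith only [hx3])]
    exact h1
  have hx1 : 1 ≤ x := by linarith only [hx3]
  have hη1 : x ^ η₁ ≤ x := by
    calc x ^ η₁ ≤ x ^ (1 : ℝ) := Real.rpow_le_rpow_of_exponent_le hx1 hη₁1
      _ = x := Real.rpow_one x
  have hη2 : x ^ η₁ ≤ x ^ η := Real.rpow_le_rpow_of_exponent_le hx1 hη₁
  have hlow : WK M (T - 2 * u) S A ≤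
      ∑ d ∈ D.filter (fun d => ML.mult S d ∈ A), 1 / (d : ℝ) + θ := by
    refine sum_le_add_bad _ _ (Bad M x) θ (fun d hd hb => ?_) (fun s hs => ?_)
    · obtain ⟨hd1, hd2⟩ := Finset.mem_filter.1 hd
      refine Finset.mem_filter.2 ⟨hD2 d ?_ ((hsz d hd1).trans hη2) fun n hn1 hn => ?_, hd2⟩
      · obtain ⟨⟨J, Q, -, hch⟩, -⟩ := KA.mem_DF_DD hd1
        obtain ⟨n, h1, h2, -⟩ := VLow.ch_tot hch
        exact ⟨n, h1, h2⟩
      · subst hn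
        obtain ⟨-, h2⟩ := hstruct x n hx9 hx4 hn1 ((hsz _ hd1).trans hη1) hb
        have h3 := (abs_le.1 h2).1
        have h4 := KA.mem_DF_cost hd1
        rw [J3.Cost_one] at h4
        have h5 := (le_max_right _ _).trans h4
        rw [hT] at h5
        linarith only [h3, h5, hτ, h818, hp15', hu0]
    · refine (hmass x s hx9 hx4 fun d hd => ?_).trans hβ
      obtain ⟨h1, h2⟩ := hs d hd
      have h3 := (Finset.mem_filter.1 h1).1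
      exact ⟨KA.mem_DF_pos h3, (hsz d h3).trans hη1, h2⟩
  have hdiff := WK_diff M (τ := T - 2 * u) (τ' := T + 2 * u) (by linarith only [hu0]) S A
  rw [← hW₁, ← hW₂] at hdiff
  obtain ⟨Z, hZ⟩ : ∃ Z : ℝ, Z = ∑ d ∈ D.filter (fun d => ML.mult S d ∈ A), 1 / (d : ℝ) := ⟨_, rfl⟩
  obtain ⟨R, hR⟩ : ∃ R : ℝ, R = WK M (T - 2 * u) S A := ⟨_, rfl⟩
  rw [← hZ] at hup hlow ⊢
  rw [← hR] at hlow hdiff axK
  have hθW : θ ≤ θ * W₂ := by nlinarith only [hθ0, hW₂1]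
  have hZR : |Z - R| ≤ 4 * θ * W₂ := by
    rw [abs_le]
    constructor <;> nlinarith only [hup, hlow, hdiff, hW12, hθW, hθ0]
  obtain ⟨X, hXd⟩ : ∃ X : ℝ, X = x / Real.log x := ⟨_, rfl⟩
  rw [← hXd] at hX ax axK ⊢
  have hXW : X * W₂ ≤ 2 * ML.V x := by
    have h1 := (abs_le.1 ax).1
    have h2 : 0 < X * W₂ := by positivity
    nlinarith only [h1, h2, hθ1]
  have h1 : |X * Z - X * R| ≤ X * (4 * θ * W₂) := by
    rw [← mul_sub, abs_mul, abs_of_pos hX]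
    gcongr
  have hV0 : (0 : ℝ) ≤ ML.V x := Nat.cast_nonneg _
  have h2 : 5 * θ * (X * W₂) ≤ 5 * θ * (2 * ML.V x) := by gcongr
  have h3 : 10 * θ * (ML.V x : ℝ) ≤ ε * ML.V x := by
    gcongr
    rw [hθ]; linarith only [hε₁, hε₁0]
  obtain ⟨b1, b2⟩ := abs_le.1 h1
  obtain ⟨b3, b4⟩ := abs_le.1 axK
  rw [abs_le]
  constructor <;> linarith only [b1, b2, b3, b4, h2, h3]

end Vale.Agent.N031
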