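import Vale.Agent.N031.Struct

/-!
# P031: the exceptional class has small reciprocal sum
-/

set_option linter.all false

namespace Vale.Agent.N031

open Finset Filter Topology Vale.Agent.P031 Vale.Agent.P031.ThinM

theorem mass_pairs (s P B : Finset ℕ) (g : ℕ → ℕ)
    (h : ∀ d ∈ s, ∃ p ∈ P, ∃ c ∈ B, d = g p * c) :
    ∑ d ∈ s, 1 / (d : ℝ) ≤ (∑ p ∈ P, 1 / (g p : ℝ)) * ∑ c ∈ B, 1 / (c : ℝ) := by
  rw [← Crude.mass_prod P B g]
  refine Crude.mass_cover s (P ×ˢ B) (fun x => g x.1 * x.2) fun d hd => ?_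
  obtain ⟨p, hp, c, hc, rfl⟩ := h d hd
  exact ⟨(p, c), Finset.mem_product.2 ⟨hp, hc⟩, rfl⟩

theorem mass_or (s : Finset ℕ) (P Q : ℕ → Prop) (a b : ℝ) (h : ∀ d ∈ s, P d ∨ Q d)
    (hP : ∀ t : Finset ℕ, (∀ d ∈ t, d ∈ s ∧ P d) → ∑ d ∈ t, 1 / (d : ℝ) ≤ a)
    (hQ : ∀ t : Finset ℕ, (∀ d ∈ t, d ∈ s ∧ Q d) → ∑ d ∈ t, 1 / (d : ℝ) ≤ b) :
    ∑ d ∈ s, 1 / (d : ℝ) ≤ a + b := by
  classical
  rw [← Finset.sum_filter_add_sum_filter_not s P]
  refine add_le_add (hP _ fun d hd => Finset.mem_filter.1 hd) (hQ _ fun d hd => ?_)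
  obtain ⟨h1, h2⟩ := Finset.mem_filter.1 hd
  exact ⟨h1, (h d h1).resolve_left h2⟩

theorem le_exp_exp {z t : ℝ} (hz : 1 < z) (h : ll z ≤ t) : z ≤ Real.exp (Real.exp t) := by
  have h1 := log_le_exp_of_ll_le hz h
  calc z = Real.exp (Real.log z) := (Real.exp_log (by linarith)).symm
    _ ≤ _ := Real.exp_le_exp.2 h1

theorem mass1 : ∀ᶠ M : ℕ in atTop, ∀ (z : ℝ) (s : Finset ℕ), 9 ≤ z → ll z ≤ 4 * (M : ℝ) ^ 20 →
    (∀ d ∈ s, 1 ≤ d ∧ (d : ℝ) ≤ z ∧ M ^ 25 + 1 ≤ Om d) →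
    ∑ d ∈ s, 1 / (d : ℝ) ≤ Real.exp (-(M : ℝ)) := by
  obtain ⟨C, hC0, hC⟩ := sum_pow_Om (19 / 10) (by norm_num) (by norm_num)
  filter_upwards [ev_num C] with M hN z s hz hzM hs
  have hM := hN.hM
  have h20 : (1 : ℝ) ≤ (M : ℝ) ^ 20 := one_le_pow₀ (by linarith only [hM])
  have h1 := mass_Om_ge C hC (4 * (M : ℝ) ^ 20) ((M : ℝ) ^ 25) (by linarith only [h20]) s (fun d hd => by
    obtain ⟨h1, h2, h3⟩ := hs d hd
    refine ⟨h1, by exact_mod_cast (by omega : M ^ 25 ≤ Om d), fun q hq hqd => ?_⟩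
    have h4 : (q : ℝ) ≤ d := by exact_mod_cast Nat.le_of_dvd h1 hqd
    exact h4.trans (h2.trans (le_exp_exp (by linarith only [hz]) hzM)))
  refine h1.trans ?_
  have p1 := hN.pow_le (a := 1) (b := 20) (by norm_num)
  have p2 := hN.pow_le (a := 20) (b := 25) (by norm_num)
  rw [pow_one] at p1
  have h2 : C ≤ Real.exp (M : ℝ) := by
    have := Real.add_one_le_exp (M : ℝ)
    linarith only [this, hN.hC]
  calc C * Real.exp (19 / 10 * (4 * (M : ℝ) ^ 20) - 64 / 100 * (M : ℝ) ^ 25)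
      ≤ Real.exp (M : ℝ) * Real.exp (19 / 10 * (4 * (M : ℝ) ^ 20) - 64 / 100 * (M : ℝ) ^ 25) := by
        gcongr
    _ ≤ Real.exp (-(M : ℝ)) := by
        rw [← Real.exp_add]
        exact Real.exp_le_exp.2 (by linarith only [p1, p2, hM])

theorem mass2 : ∀ᶠ M : ℕ in atTop, ∀ (z : ℝ) (s : Finset ℕ), 9 ≤ z → ll z ≤ 4 * (M : ℝ) ^ 20 →
    (∀ d ∈ s, 1 ≤ d ∧ (d : ℝ) ≤ z ∧ ∃ p c : ℕ, Real.exp (Real.exp ((M : ℝ) ^ 15)) ≤ p ∧
      (d = p * p * c ∨ d = p * (p - 1) * c)) →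
    ∑ d ∈ s, 1 / (d : ℝ) ≤ Real.exp (-(M : ℝ)) := by
  classical
  filter_upwards [ev_num 0] with M hN z s hz hzM hs
  have hM := hN.hM
  have hz0 : (0 : ℝ) < z := by linarith only [hz]
  set Y : ℝ := Real.exp (Real.exp ((M : ℝ) ^ 15)) with hY
  have h15 : (1 : ℝ) ≤ (M : ℝ) ^ 15 := one_le_pow₀ (by linarith only [hM])
  have hY3 : 3 ≤ Y := three_le_exp_exp (by linarith only [h15])
  set P : Finset ℕ := (Finset.Icc 1 (⌊z⌋₊ + 1)).filter (fun p => Y ≤ (p : ℝ)) with hP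
  have hPa : ∀ p ∈ P, ⌈Y⌉₊ ≤ p := fun p hp => Nat.ceil_le.2 (Finset.mem_filter.1 hp).2
  have ha2 : 2 ≤ ⌈Y⌉₊ := by
    have : (2 : ℝ) ≤ (⌈Y⌉₊ : ℝ) := le_trans (by linarith only [hY3]) (Nat.le_ceil Y)
    exact_mod_cast this
  have hPm : ∑ p ∈ P, 1 / ((p : ℝ) * ((p : ℝ) - 1)) ≤ 2 / Y := by
    refine (sum_inv_mul_pred_le P _ ha2 hPa).trans ?_
    have h1 := Nat.le_ceil Y
    rw [div_le_div_iff₀ (by linarith only [h1, hY3]) (by linarith only [hY3])]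
    linarith only [h1, hY3]
  have hH : ∑ c ∈ Finset.Icc 1 ⌊z⌋₊, 1 / (c : ℝ) ≤ 2 * Real.exp (4 * (M : ℝ) ^ 20) := by
    refine (Rc.harmonic_real _).trans ?_
    have h1 : Real.log (⌊z⌋₊ : ℝ) ≤ Real.log z := by
      refine Real.log_le_log ?_ (Nat.floor_le hz0.le)
      have : 1 ≤ ⌊z⌋₊ := Nat.le_floor (by push_cast; linarith only [hz])
      exact_mod_cast this
    have h2 := log_le_exp_of_ll_le (a := z) (by linarith only [hz]) hzM
    have h3 : (1 : ℝ) ≤ Real.exp (4 * (M : ℝ) ^ 20) := Real.one_le_exp (by positivity)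
    linarith only [h1, h2, h3]
  have hH0 : 0 ≤ ∑ c ∈ Finset.Icc 1 ⌊z⌋₊, 1 / (c : ℝ) := Finset.sum_nonneg fun _ _ => by positivity
  have hmem : ∀ d p c g : ℕ, 1 ≤ d → (d : ℝ) ≤ z → Y ≤ (p : ℝ) → d = p * g * c →
      p ∈ P ∧ c ∈ Finset.Icc 1 ⌊z⌋₊ := by
    intro d p c g h1 h2 h3 h4
    have h5 : d ≤ ⌊z⌋₊ := Nat.le_floor h2
    have h6 : p ≤ d := Nat.le_of_dvd h1 ⟨g * c, by rw [h4]; ring⟩
    have h7 : c ≤ d := Nat.le_of_dvd h1 ⟨p * g, by rw [h4]; ring⟩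
    have h8 : c ≠ 0 := by rintro rfl; simp at h4; omega
    have h9 : p ≠ 0 := by rintro rfl; simp at h4; omega
    refine ⟨Finset.mem_filter.2 ⟨Finset.mem_Icc.2 ⟨by omega, by omega⟩, h3⟩,
      Finset.mem_Icc.2 ⟨by omega, by omega⟩⟩
  have hP2 : ∀ p ∈ P, (2 : ℝ) ≤ p := fun p hp => by
    have := (Finset.mem_filter.1 hp).2
    linarith only [this, hY3]
  have hmain := mass_or s (fun d => ∃ p c : ℕ, Y ≤ (p : ℝ) ∧ d = p * p * c)
    (fun d => ∃ p c : ℕ, Y ≤ (p : ℝ) ∧ d = p * (p - 1) * c)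
    (2 / Y * (2 * Real.exp (4 * (M : ℝ) ^ 20))) (2 / Y * (2 * Real.exp (4 * (M : ℝ) ^ 20)))
    (fun d hd => by
      obtain ⟨-, -, p, c, h1, h2 | h2⟩ := hs d hd
      · exact Or.inl ⟨p, c, h1, h2⟩
      · exact Or.inr ⟨p, c, h1, h2⟩)
    (fun t ht => by
      refine (mass_pairs t P (Finset.Icc 1 ⌊z⌋₊) (fun p => p * p) fun d hd => ?_).trans ?_
      · obtain ⟨h1, p, c, h2, h3⟩ := ht d hd
        obtain ⟨h4, h5⟩ := hmem d p c p (hs d h1).1 (hs d h1).2.1 h2 h3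
        exact ⟨p, h4, c, h5, h3⟩
      · refine mul_le_mul (le_trans (Finset.sum_le_sum fun p hp => ?_) hPm) hH hH0 (by positivity)
        have h2 := hP2 p hp
        push_cast
        apply one_div_le_one_div_of_le
        · exact mul_pos (by linarith only [h2]) (by linarith only [h2])
        · nlinarith only [h2])
    (fun t ht => by
      refine (mass_pairs t P (Finset.Icc 1 ⌊z⌋₊) (fun p => p * (p - 1)) fun d hd => ?_).trans ?_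
      · obtain ⟨h1, p, c, h2, h3⟩ := ht d hd
        obtain ⟨h4, h5⟩ := hmem d p c (p - 1) (hs d h1).1 (hs d h1).2.1 h2 h3
        exact ⟨p, h4, c, h5, h3⟩
      · refine mul_le_mul (le_trans (Finset.sum_le_sum fun p hp => ?_) hPm) hH hH0 (by positivity)
        have h2 := hP2 p hp
        have h3 : 1 ≤ p := by
          have : (1 : ℝ) ≤ p := by linarith only [h2]
          exact_mod_cast this
        push_cast [Nat.cast_sub h3]
        exact le_rfl)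
  refine hmain.trans ?_
  have h30 : (M : ℝ) ^ 30 / 2 ≤ Real.exp ((M : ℝ) ^ 15) := by
    have h1 := Real.quadratic_le_exp_of_nonneg (x := (M : ℝ) ^ 15) (by positivity)
    have h2 : ((M : ℝ) ^ 15) ^ 2 = (M : ℝ) ^ 30 := by ring
    linarith only [h1, h2, h15]
  have p1 := hN.pow_le (a := 1) (b := 20) (by norm_num)
  have p2 := hN.pow_le (a := 20) (b := 30) (by norm_num)
  rw [pow_one] at p1
  have h8 : (8 : ℝ) ≤ Real.exp (M : ℝ) := by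
    have := Real.add_one_le_exp (M : ℝ)
    linarith only [this, hM]
  have hYpos : 0 < Y := by linarith only [hY3]
  have hkey : Real.exp (M : ℝ) * Real.exp (4 * (M : ℝ) ^ 20) ≤ Real.exp (-(M : ℝ)) * Y := by
    rw [hY, ← Real.exp_add, ← Real.exp_add]
    exact Real.exp_le_exp.2 (by linarith only [h30, p1, p2, hM])
  have he : 0 < Real.exp (4 * (M : ℝ) ^ 20) := Real.exp_pos _
  have h9 : 2 / Y * (2 * Real.exp (4 * (M : ℝ) ^ 20)) + 2 / Y * (2 * Real.exp (4 * (M : ℝ) ^ 20)) =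
      8 * Real.exp (4 * (M : ℝ) ^ 20) / Y := by ring
  rw [h9, div_le_iff₀ hYpos]
  nlinarith only [hkey, h8, he]

theorem tots_mass : ∀ᶠ M : ℕ in atTop, ∀ (z : ℝ), 9 ≤ z → ll z ≤ 4 * (M : ℝ) ^ 20 →
    ∑ c ∈ Crude.WW z, 1 / (c : ℝ) ≤ Real.exp (M : ℝ) := by
  filter_upwards [cm] with M hcm z hz hzM
  have h20 : (0 : ℝ) ≤ (M : ℝ) ^ 20 := by positivity
  exact hcm z _ (by linarith only [hzM, h20]) fun d hd =>
    (Crude.mem_WW (by linarith only [hz])).1 hd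

theorem mass3 : ∀ᶠ M : ℕ in atTop, ∀ (z : ℝ) (s : Finset ℕ), 9 ≤ z → ll z ≤ 4 * (M : ℝ) ^ 20 →
    (∀ d ∈ s, 1 ≤ d ∧ (d : ℝ) ≤ z ∧ ∃ p c : ℕ, Big M p ∧ ¬ Nrm M p ∧ IsTot c ∧ d = (p - 1) * c) →
    ∑ d ∈ s, 1 / (d : ℝ) ≤ Real.exp (-(M : ℝ)) := by
  classical
  filter_upwards [ev_num 0, tots_mass, np_mass] with M hN htm hnp z s hz hzM hs
  have hM := hN.hM
  have hz0 : (0 : ℝ) < z := by linarith only [hz]
  have h20 : (1 : ℝ) ≤ (M : ℝ) ^ 20 := one_le_pow₀ (by linarith only [hM])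
  set P : Finset ℕ := (Finset.Icc 1 (⌊z⌋₊ + 1)).filter (fun p => Big M p ∧ ¬ Nrm M p) with hP
  have h1 := mass_pairs s P (Crude.WW z) (fun p => p - 1) (fun d hd => by
    obtain ⟨h1, h2, p, c, h3, h4, h5, h6⟩ := hs d hd
    have h7 : d ≤ ⌊z⌋₊ := Nat.le_floor h2
    have h8 : p - 1 ≤ d := Nat.le_of_dvd h1 ⟨c, h6⟩
    have h9 : c ≤ d := Nat.le_of_dvd h1 ⟨p - 1, by rw [h6]; ring⟩
    have h10 := h3.1.two_le
    refine ⟨p, Finset.mem_filter.2 ⟨Finset.mem_Icc.2 ⟨by omega, by omega⟩, h3, h4⟩, c,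
      (Crude.mem_WW hz0.le).2 ⟨h5, le_trans (by exact_mod_cast h9) h2⟩, h6⟩)
  have h2 := hnp P (fun p hp => by
    obtain ⟨h3, h4, h5⟩ := Finset.mem_filter.1 hp
    refine ⟨h4, h5, ?_⟩
    have h6 : (p : ℝ) ≤ z + 1 := by
      have h7 : (p : ℝ) ≤ (⌊z⌋₊ : ℝ) + 1 := by exact_mod_cast (Finset.mem_Icc.1 h3).2
      have := Nat.floor_le hz0.le
      linarith only [this, h7]
    have h7 := J3.ll_le_of_pred_le (x := z) (by linarith only [hz])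
      (by exact_mod_cast h4.1.one_lt) h6
    linarith only [h7, hzM, h20])
  have h3 : ∑ p ∈ P, 1 / (((p - 1 : ℕ)) : ℝ) = ∑ p ∈ P, 1 / ((p : ℝ) - 1) := by
    refine Finset.sum_congr rfl fun p hp => ?_
    rw [Nat.cast_sub (Finset.mem_Icc.1 (Finset.mem_filter.1 hp).1).1, Nat.cast_one]
  refine h1.trans ?_
  rw [h3]
  have p1 := hN.pow_le (a := 1) (b := 3) (by norm_num)
  rw [pow_one] at p1
  calc (∑ p ∈ P, 1 / ((p : ℝ) - 1)) * ∑ c ∈ Crude.WW z, 1 / (c : ℝ)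
      ≤ Real.exp (-(M : ℝ) ^ 3) * Real.exp (M : ℝ) :=
        mul_le_mul h2 (htm z hz hzM) (Finset.sum_nonneg fun _ _ => by positivity) (Real.exp_pos _).le
    _ ≤ Real.exp (-(M : ℝ)) := by
        rw [← Real.exp_add]
        exact Real.exp_le_exp.2 (by linarith only [p1, hM])

theorem mass5 : ∀ᶠ M : ℕ in atTop, ∀ (z : ℝ) (s : Finset ℕ), 9 ≤ z → ll z ≤ 4 * (M : ℝ) ^ 20 →
    (∀ d ∈ s, 1 ≤ d ∧ (d : ℝ) ≤ z ∧ ∃ p c : ℕ, p.Prime ∧ (M : ℝ) ^ 2 ≤ ll (p : ℝ) ∧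
      (Om (p - 1) : ℝ) < 9 / 10 * ll (p : ℝ) ∧ IsTot c ∧ (d = (p - 1) * c ∨ d = p * c)) →
    ∑ d ∈ s, 1 / (d : ℝ) ≤ Real.exp (-(M : ℝ)) := by
  classical
  obtain ⟨c₀, C, hc₀, hC, hcn⟩ := cn_mass
  filter_upwards [ev_num (2 * C), tots_mass, ThinM.ev_ge (3 / c₀)] with M hN htm hMc z s hz hzM hs
  have hM := hN.hM
  have hz0 : (0 : ℝ) < z := by linarith only [hz]
  have hM2 : (1 : ℝ) ≤ (M : ℝ) ^ 2 := one_le_pow₀ (by linarith only [hM])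
  set P : Finset ℕ := (Finset.Icc 1 (⌊z⌋₊ + 1)).filter (fun p => p.Prime ∧ (M : ℝ) ^ 2 ≤ ll (p : ℝ) ∧
    (Om (p - 1) : ℝ) < 9 / 10 * ll (p : ℝ)) with hP
  have h2 := hcn ((M : ℝ) ^ 2) P hM2 (fun p hp => (Finset.mem_filter.1 hp).2)
  have h3 : ∑ p ∈ P, 1 / (((p - 1 : ℕ)) : ℝ) = ∑ p ∈ P, 1 / ((p : ℝ) - 1) := by
    refine Finset.sum_congr rfl fun p hp => ?_
    rw [Nat.cast_sub (Finset.mem_Icc.1 (Finset.mem_filter.1 hp).1).1, Nat.cast_one]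
  have h4 : ∑ p ∈ P, 1 / (p : ℝ) ≤ ∑ p ∈ P, 1 / ((p : ℝ) - 1) := by
    refine Finset.sum_le_sum fun p hp => ?_
    have h5 : (2 : ℝ) ≤ p := by exact_mod_cast (Finset.mem_filter.1 hp).2.1.two_le
    exact one_div_le_one_div_of_le (by linarith only [h5]) (by linarith only [h5])
  have hW0 : 0 ≤ ∑ c ∈ Crude.WW z, 1 / (c : ℝ) := Finset.sum_nonneg fun _ _ => by positivity
  have hmem : ∀ d p c : ℕ, 1 ≤ d → (d : ℝ) ≤ z → p.Prime → (M : ℝ) ^ 2 ≤ ll (p : ℝ) →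
      (Om (p - 1) : ℝ) < 9 / 10 * ll (p : ℝ) → IsTot c → (d = (p - 1) * c ∨ d = p * c) →
      p ∈ P ∧ c ∈ Crude.WW z := by
    intro d p c h1 h2 h3 h4 h5 h6 h7
    have h8 : d ≤ ⌊z⌋₊ := Nat.le_floor h2
    have h9 : p - 1 ≤ d ∧ c ≤ d := by
      rcases h7 with h7 | h7
      · exact ⟨Nat.le_of_dvd h1 ⟨c, h7⟩, Nat.le_of_dvd h1 ⟨p - 1, by rw [h7]; ring⟩⟩
      · have := Nat.le_of_dvd h1 ⟨c, h7⟩
        exact ⟨by omega, Nat.le_of_dvd h1 ⟨p, by rw [h7]; ring⟩⟩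
    have h10 := h3.two_le
    exact ⟨Finset.mem_filter.2 ⟨Finset.mem_Icc.2 ⟨by omega, by omega⟩, h3, h4, h5⟩,
      (Crude.mem_WW hz0.le).2 ⟨h6, le_trans (by exact_mod_cast h9.2) h2⟩⟩
  have hmain := mass_or s
    (fun d => ∃ p c : ℕ, p ∈ P ∧ c ∈ Crude.WW z ∧ d = (p - 1) * c)
    (fun d => ∃ p c : ℕ, p ∈ P ∧ c ∈ Crude.WW z ∧ d = p * c)
    (C * Real.exp (-(c₀ * (M : ℝ) ^ 2)) * Real.exp (M : ℝ))
    (C * Real.exp (-(c₀ * (M : ℝ) ^ 2)) * Real.exp (M : ℝ))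
    (fun d hd => by
      obtain ⟨h1, h2, p, c, h3, h4, h5, h6, h7⟩ := hs d hd
      obtain ⟨h8, h9⟩ := hmem d p c h1 h2 h3 h4 h5 h6 h7
      rcases h7 with h7 | h7
      · exact Or.inl ⟨p, c, h8, h9, h7⟩
      · exact Or.inr ⟨p, c, h8, h9, h7⟩)
    (fun t ht => by
      refine (mass_pairs t P (Crude.WW z) (fun p => p - 1) fun d hd => ?_).trans ?_
      · obtain ⟨-, p, c, h5, h6, h7⟩ := ht d hd
        exact ⟨p, h5, c, h6, h7⟩
      · rw [h3]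
        exact mul_le_mul h2 (htm z hz hzM) hW0 (by positivity))
    (fun t ht => by
      refine (mass_pairs t P (Crude.WW z) (fun p => p) fun d hd => ?_).trans ?_
      · obtain ⟨-, p, c, h5, h6, h7⟩ := ht d hd
        exact ⟨p, h5, c, h6, h7⟩
      · exact mul_le_mul (h4.trans h2) (htm z hz hzM) hW0 (by positivity))
  refine hmain.trans ?_
  have h5 : 2 * C ≤ Real.exp (M : ℝ) := by
    have := Real.add_one_le_exp (M : ℝ)
    linarith only [this, hN.hC]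
  have h6 : 3 * (M : ℝ) ≤ c₀ * (M : ℝ) ^ 2 := by
    rw [div_le_iff₀ hc₀] at hMc
    nlinarith only [hMc, hM]
  calc C * Real.exp (-(c₀ * (M : ℝ) ^ 2)) * Real.exp (M : ℝ) +
        C * Real.exp (-(c₀ * (M : ℝ) ^ 2)) * Real.exp (M : ℝ)
      = 2 * C * (Real.exp (-(c₀ * (M : ℝ) ^ 2)) * Real.exp (M : ℝ)) := by ring
    _ ≤ Real.exp (M : ℝ) * (Real.exp (-(c₀ * (M : ℝ) ^ 2)) * Real.exp (M : ℝ)) := by gcongr
    _ ≤ Real.exp (-(M : ℝ)) := by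
        rw [← Real.exp_add, ← Real.exp_add]
        exact Real.exp_le_exp.2 (by linarith only [h6])

theorem mass4 : ∀ᶠ M : ℕ in atTop, ∀ (z : ℝ) (s : Finset ℕ), 9 ≤ z → ll z ≤ 4 * (M : ℝ) ^ 20 →
    (∀ d ∈ s, ∃ k : ℕ, k ≤ M ∧ d ∈ (stp (BigF M z))^[k] (BadF M z ∪ SmF M z)) →
    ∑ d ∈ s, 1 / (d : ℝ) ≤ Real.exp (-(M : ℝ)) := by
  classical
  obtain ⟨C, hC0, hC⟩ := sum_pow_Om (19 / 10) (by norm_num) (by norm_num)
  obtain ⟨C1, hC1, hsum⟩ := sum_inv_le'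
  filter_upwards [ev_num (C + C1 + 2), ub_mass, mass_many C hC hC0.le] with M hN hubm hmm z s hz hzM hs
  have hM := hN.hM
  have hNC := hN.hC
  have hm0 : (0 : ℝ) < M := by linarith only [hM]
  have hz0 : (0 : ℝ) < z := by linarith only [hz]
  have p1 := hN.pow_le (a := 0) (b := 1) (by norm_num)
  have p2 := hN.pow_le (a := 1) (b := 2) (by norm_num)
  have p4 := hN.pow_le (a := 2) (b := 14) (by norm_num)
  have p5 := hN.pow_le (a := 14) (b := 15) (by norm_num)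
  have p15 := hN.pow_le (a := 15) (b := 16) (by norm_num)
  have p18 := hN.pow_le (a := 16) (b := 18) (by norm_num)
  have p20 := hN.pow_le (a := 18) (b := 20) (by norm_num)
  have p28 := hN.pow_le (a := 20) (b := 28) (by norm_num)
  rw [pow_zero, pow_one] at p1
  rw [pow_one] at p2
  have hzM' : ll z ≤ 5 * (M : ℝ) ^ 20 := by linarith only [hzM, p20, p18, p15, p5, p4, p2, hM]
  have hQ2 : ∀ q ∈ BigF M z, 2 ≤ q := by
    intro q hq
    unfold BigF at hq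
    rw [Finset.mem_filter] at hq
    exact hq.2.1.two_le
  have hbad1 : ∑ D ∈ BadF M z, 1 / (D : ℝ) ≤
      Real.exp (-(M : ℝ) ^ 18 + (M : ℝ) ^ 16) + Real.exp (-(M : ℝ) ^ 14) := by
    have hmemB : ∀ D ∈ BadF M z, BadD M z D := by
      intro D hD
      unfold BadF at hD
      rw [Finset.mem_filter] at hD
      exact hD.2
    refine mass_or _ (fun D => Om D ≤ M ^ 26 ∧ (M : ℝ) ^ 18 ≤ GG M D) (fun D => Many M D) _ _
      (fun D hD => (hmemB D hD).2.2) (fun t ht => hubm _ z t hzM' fun D hD => ?_)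
      (fun t ht => hmm t fun D hD => (ht D hD).2)
    obtain ⟨h1, h2, h3⟩ := ht D hD
    exact ⟨(hmemB D h1).1, (hmemB D h1).2.1, h2, h3⟩
  have hbad2 : ∑ D ∈ SmF M z, 1 / (D : ℝ) ≤
      C * Real.exp (19 / 10 * (M : ℝ) ^ 15 - 64 / 100 * (4 * (M : ℝ) ^ 15)) := by
    refine mass_Om_ge C hC _ _ (by linarith only [p5, p4, p2, hM]) _ fun D hD => ?_
    unfold SmF at hD
    rw [Finset.mem_filter, Finset.mem_Icc] at hD
    exact ⟨hD.1.1, hD.2.2, fun q hq hqd => le_of_ll_lt (hD.2.1.not_big hq hqd).le⟩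
  have hbadmass : ∑ D ∈ BadF M z ∪ SmF M z, 1 / (D : ℝ) ≤ (C + 2) * Real.exp (-(M : ℝ) ^ 14) := by
    refine (Crude.mass_union _ _).trans ?_
    have h5 : Real.exp (-(M : ℝ) ^ 18 + (M : ℝ) ^ 16) ≤ Real.exp (-(M : ℝ) ^ 14) :=
      Real.exp_le_exp.mpr (by linarith only [p18, p15, p5, p4, p2, hM])
    have h6 : Real.exp (19 / 10 * (M : ℝ) ^ 15 - 64 / 100 * (4 * (M : ℝ) ^ 15)) ≤
        Real.exp (-(M : ℝ) ^ 14) :=
      Real.exp_le_exp.mpr (by linarith only [p5, p4, p2, hM])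
    have h7 := mul_le_mul_of_nonneg_left h6 hC0.le
    linarith only [hbad1, hbad2, h5, h7]
  have hbad0 : 0 ≤ ∑ D ∈ BadF M z ∪ SmF M z, 1 / (D : ℝ) :=
    Finset.sum_nonneg (fun D _ => by positivity)
  have hσ : ∑ q ∈ BigF M z, 1 / ((q : ℝ) - 1) ≤ Real.exp (M : ℝ) := by
    have h2 := hsum (5 * (M : ℝ) ^ 20 + 1) (BigF M z) (by positivity) (by
      intro q hq
      unfold BigF at hq
      rw [Finset.mem_filter, Finset.mem_range] at hq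
      refine ⟨hq.2.1, ?_⟩
      have h3 : (q : ℝ) ≤ z + 1 := by
        have h4 : (q : ℝ) ≤ (⌊z⌋₊ : ℝ) + 1 := by exact_mod_cast (by omega : q ≤ ⌊z⌋₊ + 1)
        have := Nat.floor_le hz0.le
        linarith only [this, h4]
      have h5 := J3.ll_le_of_pred_le (x := z) (by linarith only [hz])
        (by exact_mod_cast hq.2.1.one_lt) h3
      linarith only [h5, hzM'])
    refine h2.trans (le_trans ?_ hN.e28)
    linarith only [p28, p20, p18, p15, p5, p4, p2, hNC, hC0, hM]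
  have hσ0 : 0 ≤ ∑ q ∈ BigF M z, 1 / ((q : ℝ) - 1) := by
    apply Finset.sum_nonneg
    intro q hq
    have : (2 : ℝ) ≤ q := by exact_mod_cast hQ2 q hq
    apply div_nonneg zero_le_one
    linarith only [this]
  have hsub : s ⊆ (Finset.range (M + 1)).biUnion
      (fun k => (stp (BigF M z))^[k] (BadF M z ∪ SmF M z)) := by
    intro d hd
    obtain ⟨k, hk, h⟩ := hs d hd
    exact Finset.mem_biUnion.2 ⟨k, Finset.mem_range.2 (by omega), h⟩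
  refine (Finset.sum_le_sum_of_subset_of_nonneg hsub (fun _ _ _ => by positivity)).trans ?_
  refine (sum_biUnion_inv_le _ _).trans ?_
  have h2 : ∀ k ∈ Finset.range (M + 1),
      ∑ R ∈ (stp (BigF M z))^[k] (BadF M z ∪ SmF M z), 1 / (R : ℝ) ≤
      Real.exp ((M : ℝ) ^ 2) * ((C + 2) * Real.exp (-(M : ℝ) ^ 14)) := by
    intro k hk
    rw [Finset.mem_range] at hk
    refine (stp_iter_mass _ _ hQ2 k).trans ?_
    have h3 : (∑ q ∈ BigF M z, 1 / ((q : ℝ) - 1)) ^ k ≤ Real.exp ((M : ℝ) ^ 2) := by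
      calc (∑ q ∈ BigF M z, 1 / ((q : ℝ) - 1)) ^ k ≤ (Real.exp (M : ℝ)) ^ k :=
            pow_le_pow_left₀ hσ0 hσ k
        _ ≤ (Real.exp (M : ℝ)) ^ M :=
            pow_le_pow_right₀ (Real.one_le_exp hm0.le) (by omega)
        _ = Real.exp ((M : ℝ) ^ 2) := by
            rw [← Real.exp_nat_mul]
            congr 1
            ring
    exact mul_le_mul h3 hbadmass hbad0 (Real.exp_pos _).le
  refine (Finset.sum_le_sum h2).trans ?_
  rw [Finset.sum_const, Finset.card_range, nsmul_eq_mul]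
  push_cast
  have h3 : (M : ℝ) + 1 ≤ Real.exp (M : ℝ) := Real.add_one_le_exp _
  have h4 : C + 2 ≤ Real.exp (M : ℝ) := by linarith only [h3, hNC, hC1]
  calc ((M : ℝ) + 1) * (Real.exp ((M : ℝ) ^ 2) * ((C + 2) * Real.exp (-(M : ℝ) ^ 14)))
      ≤ Real.exp (M : ℝ) * (Real.exp ((M : ℝ) ^ 2) * (Real.exp (M : ℝ) * Real.exp (-(M : ℝ) ^ 14))) := by
        gcongr
    _ ≤ Real.exp (-(M : ℝ)) := by
        rw [← Real.exp_add, ← Real.exp_add, ← Real.exp_add]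
        exact Real.exp_le_exp.2 (by linarith only [p4, p2, hM])

/-- the exceptional class has reciprocal sum at most `5 exp (-M)` -/
theorem bad_mass : ∀ᶠ M : ℕ in atTop, ∀ (z : ℝ) (s : Finset ℕ), 9 ≤ z → ll z ≤ 4 * (M : ℝ) ^ 20 →
    (∀ d ∈ s, 1 ≤ d ∧ (d : ℝ) ≤ z ∧ Bad M z d) →
    ∑ d ∈ s, 1 / (d : ℝ) ≤ 5 * Real.exp (-(M : ℝ)) := by
  filter_upwards [mass1, mass2, mass3, mass4, mass5] with M h1 h2 h3 h4 h5 z s hz hzM hs
  have e : 5 * Real.exp (-(M : ℝ)) = Real.exp (-(M : ℝ)) + (Real.exp (-(M : ℝ)) +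
      (Real.exp (-(M : ℝ)) + (Real.exp (-(M : ℝ)) + Real.exp (-(M : ℝ))))) := by ring
  rw [e]
  refine mass_or s _ _ _ _ (fun d hd => (hs d hd).2.2)
    (fun t ht => h1 z t hz hzM fun d hd => ⟨(hs d (ht d hd).1).1, (hs d (ht d hd).1).2.1, (ht d hd).2⟩)
    (fun t ht => ?_)
  refine mass_or t _ _ _ _ (fun d hd => (ht d hd).2)
    (fun u hu => h2 z u hz hzM fun d hd => ⟨(hs d (ht d (hu d hd).1).1).1,
      (hs d (ht d (hu d hd).1).1).2.1, (hu d hd).2⟩) (fun u hu => ?_)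
  refine mass_or u _ _ _ _ (fun d hd => (hu d hd).2)
    (fun w hw => h3 z w hz hzM fun d hd => ⟨(hs d (ht d (hu d (hw d hd).1).1).1).1,
      (hs d (ht d (hu d (hw d hd).1).1).1).2.1, (hw d hd).2⟩) (fun w hw => ?_)
  exact mass_or w _ _ _ _ (fun d hd => (hw d hd).2)
    (fun r hr => h4 z r hz hzM fun d hd => (hr d hd).2)
    (fun r hr => h5 z r hz hzM fun d hd => ⟨(hs d (ht d (hu d (hw d (hr d hd).1).1).1).1).1,
      (hs d (ht d (hu d (hw d (hr d hd).1).1).1).1).2.1, (hr d hd).2⟩)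

end Vale.Agent.N031
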