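import Vale.Agent.P031.H928.Thin

/-!
# P031: the linear form of Ford along a chain of normal primes
-/

set_option linter.all false

namespace Vale.Agent.N031

open Finset Filter Topology Vale.Agent.P031 Vale.Agent.P031.St

theorem aa_le_log (j : ℕ) : aa j ≤ Real.log ((j : ℝ) + 1) := by
  unfold aa
  rcases Nat.eq_zero_or_pos j with h | h
  · subst h; simp
  · have hj : (0 : ℝ) < j := by exact_mod_cast h
    have h1 : Real.log (((j : ℝ) + 1) / j) ≤ ((j : ℝ) + 1) / j - 1 :=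
      Real.log_le_sub_one_of_pos (by positivity)
    rw [Real.log_div (by positivity) hj.ne'] at h1
    have h2 : ((j : ℝ) + 1) / j - 1 = 1 / j := by field_simp; ring
    rw [h2] at h1
    have h3 : (j : ℝ) * (Real.log ((j : ℝ) + 1) - Real.log j) ≤ j * (1 / j) :=
      mul_le_mul_of_nonneg_left h1 hj.le
    have h4 : (j : ℝ) * (1 / j) = 1 := by field_simp
    linarith only [h3, h4]

/-- the one-step formula, uniformly for `j ≤ 2 M` -/
theorem stepU : ∀ᶠ M : ℕ in atTop, ∀ (j p D : ℕ), j ≤ 2 * M → Nrm M p →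
    ll (p : ℝ) ≤ 5 * (M : ℝ) ^ 20 → D ≠ 0 → Om D ≤ M ^ 26 →
    (∀ q : ℕ, q.Prime → q ∣ D → q ≤ p) →
    |HH M j ((p - 1) * D) - HH M (j + 1) D - aa j * (ll (p : ℝ) - (M : ℝ) ^ 15)|
      ≤ (M : ℝ) ^ 17 := by
  filter_upwards [ev_log_le (1 / 300) (by norm_num), ev_ge 2, ev_ge 10] with M hlog hM2 hMJ
  intro j p D hj hp hL hD hOm hqp
  have hM0 : (0 : ℝ) < M := by linarith only [hMJ]
  have hM1 : (1 : ℝ) ≤ M := by linarith only [hMJ]
  have hMnat : 1 ≤ M := by exact_mod_cast hM1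
  set lam : ℝ := (M : ℝ) ^ 13 with hlam
  have hlam0 : 0 < lam := by positivity
  set L := ll (p : ℝ) with hLdef
  have hLb : (M : ℝ) ^ 15 ≤ L := hp.big.2
  set K0 := lev M p with hK0
  have hL0 : 0 ≤ L / lam := by
    apply div_nonneg _ hlam0.le
    exact le_trans (by positivity) hLb
  have hK0a : (K0 : ℝ) * lam ≤ L := by
    have := Nat.floor_le hL0
    rw [le_div_iff₀ hlam0] at this
    exact this
  have hK0b : L < ((K0 : ℝ) + 1) * lam := by
    have := Nat.lt_floor_add_one (L / lam)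
    rw [div_lt_iff₀ hlam0] at this
    exact this
  have hM2K : M ^ 2 ≤ K0 := by
    apply Nat.le_floor
    push_cast
    rw [le_div_iff₀ hlam0]
    calc (M : ℝ) ^ 2 * lam = (M : ℝ) ^ 15 := by rw [hlam]; ring
      _ ≤ L := hLb
  have hKK : K0 < KK M := by
    have h1 : (K0 : ℝ) * lam ≤ 5 * (M : ℝ) ^ 7 * lam := by
      calc (K0 : ℝ) * lam ≤ L := hK0a
        _ ≤ 5 * (M : ℝ) ^ 20 := hL
        _ = 5 * (M : ℝ) ^ 7 * lam := by rw [hlam]; ring
    have h2 : (K0 : ℝ) ≤ 5 * (M : ℝ) ^ 7 := le_of_mul_le_mul_right h1 hlam0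
    have h3 : (K0 : ℝ) < ((KK M : ℕ) : ℝ) := by
      unfold KK
      push_cast
      have : (0 : ℝ) < (M : ℝ) ^ 7 := by positivity
      linarith only [this, h2]
    exact_mod_cast h3
  -- notation
  have hp2 : 2 ≤ p := hp.ge_two
  have hp1 : p - 1 ≠ 0 := by omega
  set B : ℕ → ℝ := fun k => (prof M (p - 1) k : ℝ) with hB
  set N : ℕ → ℝ := fun k => (prof M D k : ℝ) with hN
  set T : ℕ → ℝ := fun k => (ph lam (B k + N k + j * lam) - ph lam (j * lam)) -
    (ph lam (N k + ((j : ℝ) + 1) * lam) - ph lam (((j : ℝ) + 1) * lam)) with hT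
  have hsum : HH M j ((p - 1) * D) - HH M (j + 1) D = ∑ k ∈ Finset.Ico (M ^ 2) (KK M), T k := by
    unfold HH
    rw [← Finset.sum_sub_distrib]
    apply Finset.sum_congr rfl
    intro k _
    rw [St.prof_mul M _ _ k hp1 hD, Nat.cast_add, Nat.cast_add, Nat.cast_one]
  -- main increment
  have hinc : ph lam (((j : ℝ) + 1) * lam) - ph lam (j * lam) = lam * aa j := by
    rw [ph_eq _ _ hlam0, ph_eq _ _ hlam0, mul_div_assoc, mul_div_assoc, div_self hlam0.ne',
      mul_one, mul_one]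
    unfold gph aa
    ring
  -- bounds on logarithms
  have hlogX : 0 ≤ Real.log (M : ℝ) := Real.log_nonneg hM1
  set X : ℝ := (M : ℝ) ^ 14 with hX
  have hX1 : 1 ≤ X := one_le_pow₀ hM1
  have hlX : Real.log X = 14 * Real.log M := by rw [hX, Real.log_pow]; norm_num
  have hNle : ∀ k, N k ≤ (M : ℝ) ^ 26 := by
    intro k
    have h1 : prof M D k ≤ M ^ 26 := (prof_le_Om M D k).trans hOm
    simp only [hN]
    exact_mod_cast h1
  have hN0 : ∀ k, 0 ≤ N k := fun k => Nat.cast_nonneg _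
  have hB0 : ∀ k, 0 ≤ B k := fun k => Nat.cast_nonneg _
  have hjJ : (j : ℝ) ≤ 2 * M := by exact_mod_cast hj
  have hj0 : (0 : ℝ) ≤ j := Nat.cast_nonneg _
  have hNlam : ∀ k, N k / lam ≤ (M : ℝ) ^ 13 := by
    intro k
    rw [div_le_iff₀ hlam0]
    calc N k ≤ (M : ℝ) ^ 26 := hNle k
      _ = (M : ℝ) ^ 13 * lam := by rw [hlam]; ring
  have hXbig : (M : ℝ) ^ 13 + 2 * M + 3 ≤ X := by
    have h1 : (M : ℝ) ≤ (M : ℝ) ^ 13 := le_self_pow₀ hM1 (by norm_num)
    have h2 : (10 : ℝ) * (M : ℝ) ^ 13 ≤ M * (M : ℝ) ^ 13 :=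
      mul_le_mul_of_nonneg_right hMJ (by positivity)
    have h3 : M * (M : ℝ) ^ 13 = X := by rw [hX]; ring
    linarith only [h1, h2, h3, hMJ]
  have hlog2 : Real.log 2 ≤ Real.log X := by
    apply Real.log_le_log (by norm_num)
    calc (2 : ℝ) ≤ M := hM2
      _ ≤ X := by rw [hX]; exact le_self_pow₀ hM1 (by norm_num)
  -- the difference of the `ph`
  have hdiff : ∀ k, T k - lam * aa j =
      lam * (gph ((B k + N k + j * lam) / lam) - gph ((N k + ((j : ℝ) + 1) * lam) / lam)) := by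
    intro k
    simp only [hT]
    rw [mul_sub, ← ph_eq _ _ hlam0, ← ph_eq _ _ hlam0, ← hinc]
    ring
  have hxy : ∀ k, (B k + N k + j * lam) / lam - (N k + ((j : ℝ) + 1) * lam) / lam =
      (B k - lam) / lam := by
    intro k
    rw [← sub_div]
    congr 1
    ring
  have hx1 : ∀ k, (B k + N k + j * lam) / lam = B k / lam + N k / lam + j := by
    intro k
    rw [add_div, add_div, mul_div_assoc, div_self hlam0.ne', mul_one]
  have hx2 : ∀ k, (N k + ((j : ℝ) + 1) * lam) / lam = N k / lam + (j + 1) := by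
    intro k
    rw [add_div, mul_div_assoc, div_self hlam0.ne', mul_one]
  -- full levels
  have hfull : ∀ k ∈ Finset.Ico (M ^ 2) K0, |T k - lam * aa j| ≤ (M : ℝ) ^ 9 * (14 * Real.log M) := by
    intro k hk
    rw [Finset.mem_Ico] at hk
    have hk1 : ((k : ℝ) + 1) * (M : ℝ) ^ 13 ≤ ll (p : ℝ) := by
      have : ((k : ℝ) + 1) ≤ K0 := by exact_mod_cast hk.2
      exact (mul_le_mul_of_nonneg_right this hlam0.le).trans hK0a
    have h1 : |B k - lam| ≤ (M : ℝ) ^ 9 := hp.prof_near k hk.1 hk1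
    have h2 := abs_le.1 h1
    have hM9 : (M : ℝ) ^ 9 ≤ lam / 2 := by
      rw [hlam]
      have h3 : (2 : ℝ) * (M : ℝ) ^ 9 ≤ M * (M : ℝ) ^ 9 :=
        mul_le_mul_of_nonneg_right hM2 (by positivity)
      have h4 : M * (M : ℝ) ^ 9 ≤ (M : ℝ) ^ 13 := by
        rw [← pow_succ']
        exact pow_le_pow_right₀ hM1 (by norm_num)
      linarith only [h4, h3]
    have hBl : 1 / 2 ≤ B k / lam := by
      rw [le_div_iff₀ hlam0]; linarith only [hM9, h2]
    have hBu : B k / lam ≤ 2 := by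
      rw [div_le_iff₀ hlam0]; linarith only [hM9, h2]
    have hNl : 0 ≤ N k / lam := div_nonneg (hN0 k) hlam0.le
    rw [hdiff, abs_mul, abs_of_pos hlam0]
    have h5 := gph_abs1 ((B k + N k + j * lam) / lam) ((N k + ((j : ℝ) + 1) * lam) / lam)
      (Real.log X) (by rw [hx1]; linarith only [hBl, hNl]) (by rw [hx2]; linarith only [hNl])
      (by
        rw [hx1, abs_le]
        constructor
        · have h6 : Real.log (1 / 2) ≤ Real.log (B k / lam + N k / lam + j) :=
            Real.log_le_log (by norm_num) (by linarith only [hBl, hNl])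
          rw [one_div, Real.log_inv] at h6
          linarith only [h6, hlog2]
        · exact Real.log_le_log (by linarith only [hBl, hNl]) (by linarith only [hjJ, hXbig, hBu, hNlam k]))
      (by
        rw [hx2, abs_of_nonneg (Real.log_nonneg (by linarith only [hNl]))]
        exact Real.log_le_log (by linarith only [hNl]) (by linarith only [hjJ, hXbig, hNlam k]))
    rw [hxy, abs_div, abs_of_pos hlam0, hlX] at h5
    calc lam * |gph ((B k + N k + j * lam) / lam) - gph ((N k + ((j : ℝ) + 1) * lam) / lam)|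
        ≤ lam * (|B k - lam| / lam * (14 * Real.log M)) := mul_le_mul_of_nonneg_left h5 hlam0.le
      _ = |B k - lam| * (14 * Real.log M) := by field_simp
      _ ≤ (M : ℝ) ^ 9 * (14 * Real.log M) := mul_le_mul_of_nonneg_right h1 (by positivity)
  -- boundary level
  have hbd : |T K0 - lam * aa j| ≤ lam * (1 + 14 * Real.log M) := by
    have h1 : B K0 ≤ 2 * lam := hp.prof_le K0 hM2K
    have h2 : |B K0 - lam| ≤ lam := by
      rw [abs_le]; constructor <;> linarith only [h1, hB0 K0]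
    have hBl : 0 ≤ B K0 / lam := div_nonneg (hB0 K0) hlam0.le
    have hBu : B K0 / lam ≤ 2 := by
      rw [div_le_iff₀ hlam0]; linarith only [h1]
    have hNl : 0 ≤ N K0 / lam := div_nonneg (hN0 K0) hlam0.le
    rw [hdiff, abs_mul, abs_of_pos hlam0]
    apply mul_le_mul_of_nonneg_left _ hlam0.le
    have h5 := gph_abs2 ((B K0 + N K0 + j * lam) / lam) ((N K0 + ((j : ℝ) + 1) * lam) / lam)
      X (by rw [hx1]; linarith only [hBl, hNl]) (by rw [hx1]; linarith only [hjJ, hXbig, hBu, hNlam K0]) (by rw [hx2]; linarith only [hNl])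
      (by rw [hx2]; linarith only [hjJ, hXbig, hNlam K0]) hX1
    rw [hxy, abs_div, abs_of_pos hlam0, hlX] at h5
    have h6 : |B K0 - lam| / lam ≤ 1 := by rw [div_le_iff₀ hlam0]; linarith only [h2]
    have h7 : |B K0 - lam| / lam * (14 * Real.log M) ≤ 1 * (14 * Real.log M) :=
      mul_le_mul_of_nonneg_right h6 (by positivity)
    linarith only [h5, h7]
  -- upper levels
  have hup : ∀ k ∈ Finset.Ico (K0 + 1) (KK M), T k = 0 := by
    intro k hk
    rw [Finset.mem_Ico] at hk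
    have h1 : prof M (p - 1) k = 0 := by
      apply prof_eq_zero
      intro q hq hqd hlev
      have hqp' : q ≤ p := (Nat.le_of_dvd (by omega) hqd).trans (Nat.sub_le _ _)
      have := lev_le_lev (M := M) hq hqp'
      omega
    have h2 : prof M D k = 0 := by
      apply prof_eq_zero
      intro q hq hqd hlev
      have := lev_le_lev (M := M) hq (hqp q hq hqd)
      omega
    simp [hT, hB, hN, h1, h2]
  -- splitting the sum
  have hsplit : ∑ k ∈ Finset.Ico (M ^ 2) (KK M), T k = ∑ k ∈ Finset.Ico (M ^ 2) K0, T k + T K0 := by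
    rw [← Finset.sum_Ico_consecutive T hM2K hKK.le, Finset.sum_eq_sum_Ico_succ_bot hKK,
      Finset.sum_eq_zero hup, add_zero]
  have hmain : |∑ k ∈ Finset.Ico (M ^ 2) K0, T k - ((K0 : ℝ) - (M : ℝ) ^ 2) * (lam * aa j)| ≤
      6 * (M : ℝ) ^ 7 * ((M : ℝ) ^ 9 * (14 * Real.log M)) := by
    have h1 : ((K0 : ℝ) - (M : ℝ) ^ 2) * (lam * aa j) =
        ∑ k ∈ Finset.Ico (M ^ 2) K0, lam * aa j := by
      rw [Finset.sum_const, Nat.card_Ico, nsmul_eq_mul, Nat.cast_sub hM2K]
      push_cast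
      rfl
    rw [h1, ← Finset.sum_sub_distrib]
    refine (Finset.abs_sum_le_sum_abs _ _).trans ((Finset.sum_le_sum hfull).trans ?_)
    rw [Finset.sum_const, Nat.card_Ico, nsmul_eq_mul]
    apply mul_le_mul_of_nonneg_right _ (by positivity)
    have h2 : K0 - M ^ 2 ≤ 6 * M ^ 7 := by unfold KK at hKK; omega
    exact_mod_cast h2
  have haj : |aa j| ≤ (M : ℝ) := by
    rw [abs_le]
    constructor
    · have h1 := aa_mono 0 j (Nat.zero_le _)
      rw [aa_zero] at h1
      linarith only [h1, hM1]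
    · have h1 := aa_le_log j
      have h2 : Real.log ((j : ℝ) + 1) ≤ Real.log ((M : ℝ) ^ 2) :=
        Real.log_le_log (by positivity) (by nlinarith only [hjJ, hMJ])
      rw [Real.log_pow] at h2
      push_cast at h2
      linarith only [h1, h2, hlog, hM1]
  have hfin : |aa j * (((K0 : ℝ) + 1) * lam - L)| ≤ (M : ℝ) * lam := by
    rw [abs_mul]
    apply mul_le_mul haj _ (abs_nonneg _) (by positivity)
    rw [abs_le]; constructor <;> linarith only [hlam0, hK0b, hK0a]
  rw [hsum, hsplit]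
  have hid : ∑ k ∈ Finset.Ico (M ^ 2) K0, T k + T K0 - aa j * (L - (M : ℝ) ^ 15) =
      (∑ k ∈ Finset.Ico (M ^ 2) K0, T k - ((K0 : ℝ) - (M : ℝ) ^ 2) * (lam * aa j)) +
      (T K0 - lam * aa j) + aa j * (((K0 : ℝ) + 1) * lam - L) := by
    rw [hlam]; ring
  rw [hid]
  refine (abs_add_le _ _).trans ((add_le_add (abs_add_le _ _) le_rfl).trans ?_)
  have hpow : (M : ℝ) ^ 17 = (M : ℝ) ^ 16 * M := by ring
  have e1 : 6 * (M : ℝ) ^ 7 * ((M : ℝ) ^ 9 * (14 * Real.log M)) ≤ 84 / 300 * (M : ℝ) ^ 17 := by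
    calc 6 * (M : ℝ) ^ 7 * ((M : ℝ) ^ 9 * (14 * Real.log M))
        = 84 * (M : ℝ) ^ 16 * Real.log M := by ring
      _ ≤ 84 * (M : ℝ) ^ 16 * (1 / 300 * M) := mul_le_mul_of_nonneg_left hlog (by positivity)
      _ = 84 / 300 * (M : ℝ) ^ 17 := by ring
  have e2 : lam * (1 + 14 * Real.log M) + (M : ℝ) * lam ≤ 2 * (M : ℝ) ^ 14 := by
    have h1 : (1 + 14 * Real.log M) + (M : ℝ) ≤ 2 * M := by
      linarith only [hMJ, hlog]
    calc lam * (1 + 14 * Real.log M) + (M : ℝ) * lam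
        = lam * ((1 + 14 * Real.log M) + (M : ℝ)) := by ring
      _ ≤ lam * (2 * M) := mul_le_mul_of_nonneg_left h1 hlam0.le
      _ = 2 * (M : ℝ) ^ 14 := by rw [hlam]; ring
  have e3 : 4 * (M : ℝ) ^ 14 ≤ (M : ℝ) ^ 17 := by
    have h1 : (4 : ℝ) ≤ M * M := by nlinarith only [hM2]
    calc 4 * (M : ℝ) ^ 14 ≤ (M * M) * (M : ℝ) ^ 14 := mul_le_mul_of_nonneg_right h1 (by positivity)
      _ = (M : ℝ) ^ 16 := by ring
      _ ≤ (M : ℝ) ^ 17 := pow_le_pow_right₀ hM1 (by norm_num)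
  have e4 : (0 : ℝ) ≤ (M : ℝ) ^ 17 := by positivity
  linarith only [e1, e2, e3, e4, hmain, hbd, hfin]

end Vale.Agent.N031
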