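import Vale.Agent.N031.Chain

/-!
# P031: outside an explicit exceptional class, every preimage of a totient has a good chain
-/

set_option linter.all false

namespace Vale.Agent.N031

open Finset Filter Topology Vale.Agent.P031 Vale.Agent.P031.ThinM

open Classical in
/-- integers without big prime factors and with many prime factors -/
noncomputable def SmF (M : ℕ) (z : ℝ) : Finset ℕ :=
  (Finset.Icc 1 ⌊z⌋₊).filter (fun s => Small M s ∧ 4 * (M : ℝ) ^ 15 ≤ (Om s : ℝ))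

/-- the exceptional classes -/
def Bad (M : ℕ) (z : ℝ) (d : ℕ) : Prop :=
  M ^ 25 + 1 ≤ Om d ∨
  (∃ p c : ℕ, Real.exp (Real.exp ((M : ℝ) ^ 15)) ≤ p ∧ (d = p * p * c ∨ d = p * (p - 1) * c)) ∨
  (∃ p c : ℕ, Big M p ∧ ¬ Nrm M p ∧ IsTot c ∧ d = (p - 1) * c) ∨
  (∃ k : ℕ, k ≤ M ∧ d ∈ (stp (BigF M z))^[k] (BadF M z ∪ SmF M z)) ∨
  (∃ p c : ℕ, p.Prime ∧ (M : ℝ) ^ 2 ≤ ll (p : ℝ) ∧ (Om (p - 1) : ℝ) < 9 / 10 * ll (p : ℝ) ∧
    IsTot c ∧ (d = (p - 1) * c ∨ d = p * c))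

theorem tot_split {n p : ℕ} (hn : n ≠ 0) (hp : p.Prime) (h : p ∣ n) :
    ∃ c : ℕ, IsTot c ∧ (Nat.totient n = (p - 1) * c ∨ Nat.totient n = p * c) := by
  obtain ⟨k, hk⟩ := h
  have hk0 : k ≠ 0 := by
    rintro rfl
    exact hn (by rw [hk]; simp)
  refine ⟨Nat.totient k, ⟨k, Nat.pos_of_ne_zero hk0, rfl⟩, ?_⟩
  by_cases hpk : p ∣ k
  · right
    rw [hk, Nat.totient_mul_of_prime_of_dvd hp hpk]
  · left
    rw [hk, Nat.totient_mul ((Nat.Prime.coprime_iff_not_dvd hp).mpr hpk), Nat.totient_prime hp]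

theorem struct_good : ∀ᶠ M : ℕ in atTop, ∀ (z : ℝ) (n : ℕ), 9 ≤ z → ll z ≤ 4 * (M : ℝ) ^ 20 →
    1 ≤ n → (Nat.totient n : ℝ) ≤ z → ¬ Bad M z (Nat.totient n) →
    Nat.totient n ∈ DD M 0 ∧ |HH M 1 (Nat.totient n) - kap 0 n| ≤ 3 * (M : ℝ) ^ 18 := by
  classical
  filter_upwards [chain_kap, kap_small, ev_decay, eventually_ge_atTop 1] with M hchain hsmall hdecay hM1
    z n hz hzM hn1 hvz hbad
  set v := Nat.totient n with hvdef
  have hnv : Nat.totient n = v := rfl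
  have hM0 : (1 : ℝ) ≤ M := by exact_mod_cast hM1
  have hz0 : (0 : ℝ) < z := by linarith only [hz]
  have hn0 : n ≠ 0 := by omega
  have hv0 : v ≠ 0 := (Nat.totient_pos.2 hn1).ne'
  have c1 : Om v ≤ M ^ 25 := by
    by_contra h
    exact hbad (Or.inl (by omega))
  have c2 : NoSq M v := by
    intro q hq ⟨c, hc⟩
    exact hbad (Or.inr (Or.inl ⟨q, c, Rc.Big_lb hq, Or.inl (by rw [hc]; ring)⟩))
  have hlist := exists_list' M n hn0 (by
    intro p hpB hpn
    have hsq : ¬ p ^ 2 ∣ n := by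
      intro h
      obtain ⟨c, hc⟩ := totient_sq_dvd hpB.1 h
      exact hbad (Or.inr (Or.inl ⟨p, c, Rc.Big_lb hpB, Or.inr hc⟩))
    refine ⟨?_, hsq⟩
    by_contra hNrm
    obtain ⟨k, hk⟩ := hpn
    have hpk : ¬ p ∣ k := by
      rintro ⟨c, hc⟩
      exact hsq ⟨c, by rw [hk, hc]; ring⟩
    have hk0 : k ≠ 0 := by
      rintro rfl
      exact hn0 (by rw [hk]; simp)
    have hcop : Nat.Coprime p k := (Nat.Prime.coprime_iff_not_dvd hpB.1).mpr hpk
    refine hbad (Or.inr (Or.inr (Or.inl ⟨p, Nat.totient k, hpB, hNrm,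
      ⟨k, Nat.pos_of_ne_zero hk0, rfl⟩, ?_⟩)))
    rw [← hnv, hk, Nat.totient_mul hcop, Nat.totient_prime hpB.1])
  obtain ⟨L, n', hn', hLN, hLp, hnL, hLv⟩ := hlist
  have hLN' : ∀ p ∈ L, Nrm M p := fun p hp => (hLN p hp).1
  have hvL : v = vl L (Nat.totient n') := hLv
  have hpdvd : ∀ p ∈ L, p - 1 ∣ v := by
    intro p hp
    rw [hvL]
    unfold vl
    apply Dvd.dvd.mul_right
    exact List.dvd_prod (List.mem_map.mpr ⟨p, hp, rfl⟩)
  have hple : ∀ p ∈ L, p ≤ ⌊z⌋₊ + 1 := by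
    intro p hp
    have h1 := Nat.le_of_dvd (Nat.pos_of_ne_zero hv0) (hpdvd p hp)
    have h2 : v ≤ ⌊z⌋₊ := Nat.le_floor hvz
    omega
  have h20 : (1 : ℝ) ≤ (M : ℝ) ^ 20 := one_le_pow₀ hM0
  have hpll : ∀ p ∈ L, ll (p : ℝ) ≤ 5 * (M : ℝ) ^ 20 := by
    intro p hp
    have h1 : (p : ℝ) ≤ z + 1 := by
      have h2 : (p : ℝ) ≤ (⌊z⌋₊ : ℝ) + 1 := by exact_mod_cast hple p hp
      have := Nat.floor_le hz0.le
      linarith only [this, h2]
    have h3 : (1 : ℝ) < p := by exact_mod_cast (hLN' p hp).big.1.one_lt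
    have h4 := J3.ll_le_of_pred_le (x := z) (by linarith only [hz]) h3 h1
    linarith only [h4, hzM, h20]
  have hBig : ∀ q ∈ L, q ∈ BigF M z := by
    intro q hq
    unfold BigF
    rw [Finset.mem_filter, Finset.mem_range]
    have := hple q hq
    exact ⟨by omega, (hLN' q hq).big⟩
  -- no bad suffix
  have hsuf : ∀ A L' : List ℕ, L = A ++ L' → A.length ≤ M →
      vl L' (Nat.totient n') ∉ BadF M z ∪ SmF M z := by
    intro A L' hA hAlen hmem
    refine hbad (Or.inr (Or.inr (Or.inr (Or.inl ⟨A.length, hAlen, ?_⟩))))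
    have hvA : v = (A.map (fun p => p - 1)).prod * vl L' (Nat.totient n') := by
      rw [hvL, hA, vl_append]
    rw [hvA]
    exact mem_stp_iter _ _ A (fun q hq => hBig q (by rw [hA]; simp [hq])) _ hmem
  have hsufD : ∀ A L' : List ℕ, L = A ++ L' →
      vl L' (Nat.totient n') ≠ 0 ∧ vl L' (Nat.totient n') ≤ ⌊z⌋₊ ∧
        Om (vl L' (Nat.totient n')) ≤ M ^ 26 := by
    intro A L' hA
    have hDv : vl L' (Nat.totient n') ∣ v := by
      rw [hvL, hA, vl_append]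
      exact Dvd.intro_left _ rfl
    refine ⟨fun h => ?_, (Nat.le_of_dvd (Nat.pos_of_ne_zero hv0) hDv).trans (Nat.le_floor hvz), ?_⟩
    · rw [h] at hDv
      exact hv0 (Nat.eq_zero_of_zero_dvd hDv)
    · have h1 := Om_le_of_dvd hv0 hDv
      have h2 : M ^ 25 ≤ M ^ 26 := Nat.pow_le_pow_right hM1 (by norm_num)
      omega
  have hmemBad : ∀ A L' : List ℕ, L = A ++ L' →
      ((M : ℝ) ^ 18 ≤ GG M (vl L' (Nat.totient n')) ∨ Many M (vl L' (Nat.totient n'))) →
      vl L' (Nat.totient n') ∈ BadF M z ∪ SmF M z := by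
    intro A L' hA h
    obtain ⟨h0, h1, h2⟩ := hsufD A L' hA
    refine Finset.mem_union_left _ ?_
    unfold BadF
    rw [Finset.mem_filter, Finset.mem_Icc]
    refine ⟨⟨Nat.pos_of_ne_zero h0, h1⟩, Nat.pos_of_ne_zero h0,
      le_trans (by exact_mod_cast h1) (Nat.floor_le hz0.le), ?_⟩
    rcases h with h | h
    · exact Or.inl ⟨h2, h⟩
    · exact Or.inr h
  have hlen : L.length ≤ M := by
    by_contra hlen
    push Not at hlen
    rcases exists_slow ((M : ℝ) ^ 15) (M / 3) L (by omega) (fun p hp => (hLN' p hp).big.2) with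
      ⟨A, q1, q2, q3, q4, L'', h1, h2, h3⟩ | h1
    · refine hsuf A _ h1 (by omega) (hmemBad A _ h1 (Or.inr ?_))
      have hsub : ∀ q ∈ q1 :: q2 :: q3 :: q4 :: L'', q ∈ L := by
        intro q hq
        rw [h1]
        exact List.mem_append_right A hq
      have hN' : ∀ q ∈ q1 :: q2 :: q3 :: q4 :: L'', Nrm M q := fun q hq => hLN' q (hsub q hq)
      have hP' : (q1 :: q2 :: q3 :: q4 :: L'').Pairwise (· > ·) := by
        rw [h1] at hLp
        exact (List.pairwise_append.mp hLp).2.1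
      refine ⟨Nat.pos_of_ne_zero (vl_ne_zero (fun q hq => (hN' q hq).two_le) (one_le_totient hn')),
        q1, (hN' q1 (by simp)).big.2, ?_, ?_, ?_⟩
      · linarith only [hpll q1 (hsub q1 (by simp))]
      · exact Om_vl_four hn' hN' hP' h3 hM1
      · exact prime_le_head hn' hN' hP'
    · match L, hlen with
      | p :: L, _ =>
        simp only [List.headD_cons] at h1
        have h2 := hpll p (by simp)
        have h3 : (9 / 10 : ℝ) ^ (M / 3) * ll (p : ℝ) ≤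
            (9 / 10 : ℝ) ^ (M / 3) * (5 * (M : ℝ) ^ 20 + 1) :=
          mul_le_mul_of_nonneg_left (by linarith only [h2]) (by positivity)
        linarith only [h1, hdecay, h3]
  refine ⟨?_, ?_⟩
  · by_contra hDD
    obtain ⟨A, L', h1, h2, h3⟩ := exists_bad M n' hn' L hLN' hLp (by rw [← hvL]; exact c2)
      (by rw [← hvL]; exact c1) hlen (by rw [← hvL]; exact hDD)
    refine hsuf A L' h1 ?_ (hmemBad A L' h1 (Or.inl h3.le))
    rw [h1, List.length_append] at hlen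
    omega
  · have h1 := hchain n' hn' L 0 (fun p hp => ⟨hLN' p hp, hpll p hp⟩) hLp (by omega)
      (hsufD [] L rfl).2.2
    rw [← hvL, ← hnL, zero_add, zero_add] at h1
    have hOm : (Om (Nat.totient n') : ℝ) ≤ 4 * (M : ℝ) ^ 15 := by
      by_contra hcon
      push Not at hcon
      obtain ⟨h0, h2, -⟩ := hsufD L [] (by simp)
      refine hsuf L [] (by simp) hlen (Finset.mem_union_right _ ?_)
      rw [vl_nil] at h0 h2 ⊢
      unfold SmF
      rw [Finset.mem_filter, Finset.mem_Icc]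
      exact ⟨⟨Nat.pos_of_ne_zero h0, h2⟩, Small_totient hn', hcon.le⟩
    have h2 := hsmall L.length n' hn'.1 hlen hOm (fun p hp hpn hpM => by
      by_contra hcon
      push Not at hcon
      obtain ⟨c, hc1, hc2⟩ := tot_split hn0 hp (hpn.trans ⟨L.prod, by rw [hnL]; ring⟩)
      exact hbad (Or.inr (Or.inr (Or.inr (Or.inr ⟨p, c, hp, hpM, hcon, hc1, hc2⟩)))))
    have h3 : (L.length : ℝ) * (2 * (M : ℝ) ^ 17) ≤ 2 * (M : ℝ) ^ 18 := by
      have h4 : (L.length : ℝ) ≤ M := by exact_mod_cast hlen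
      calc (L.length : ℝ) * (2 * (M : ℝ) ^ 17) ≤ M * (2 * (M : ℝ) ^ 17) := by gcongr
        _ = 2 * (M : ℝ) ^ 18 := by ring
    rw [abs_le] at h1 h2 ⊢
    constructor <;> linarith only [h1.1, h1.2, h2.1, h2.2, h3]

end Vale.Agent.N031
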